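import Vale.Agent.P318.R2.H344.Defs

/-!
# Sets with outside capacities of small rank: examples

Sets with `k` types of outside capacities, sets with small cut rank over the field with two
elements, and sets with a small separator.
-/

open Finset

namespace Vale.Agent.P318.R2.H821

open Vale.Agent.P318.R2.H344

/-- With `k` types of capacities to the outside, the capacities are, up to the same factor, a sum
of `k` products of nonnegative functions. -/
theorem ranked_of_typed {V : Type*} {c : V → V → ℝ} (hc : ∀ i j, 0 ≤ c i j) {k : ℕ} {H : ℝ}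
    {A : Finset V} (h : Typed c k H A) : Ranked c k H A := by
  classical
  obtain ⟨f, hf⟩ := h
  have key : ∀ (i : Fin k) (y : V), ∃ m : ℝ, 0 ≤ m ∧
      (y ∉ A → ∀ x ∈ A, f x = i → m ≤ c x y ∧ c x y ≤ H * m) := by
    intro i y
    rcases (A.filter fun x => f x = i).eq_empty_or_nonempty with he | hne
    · refine ⟨0, le_rfl, fun _ x hx hi => ?_⟩
      have : x ∈ A.filter fun x => f x = i := Finset.mem_filter.2 ⟨hx, hi⟩
      rw [he] at this
      exact absurd this (Finset.notMem_empty x)
    · obtain ⟨z, hz, hmin⟩ := Finset.exists_min_image _ (fun x => c x y) hne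
      rw [Finset.mem_filter] at hz
      refine ⟨c z y, hc z y, fun hy x hx hi => ⟨hmin x (Finset.mem_filter.2 ⟨hx, hi⟩), ?_⟩⟩
      exact hf x hx z hz.1 (hi.trans hz.2.symm) y hy
  choose m hm0 hm using key
  refine ⟨fun i x => if f x = i then 1 else 0, m, fun i x => ?_, hm0, fun x hx y hy => ?_⟩
  · beta_reduce
    split_ifs
    · exact zero_le_one
    · exact le_rfl
  · have hsum : ∑ i, (if f x = i then (1 : ℝ) else 0) * m i y = m (f x) y := by
      simp
    rw [hsum]
    exact hm (f x) y hy x hx rfl

open Classical in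
/-- The cut rank of `A`: the rank over the field with two elements of the matrix which says which
of the capacities between `A` and its complement are nonzero. -/
noncomputable def cutRank {V : Type*} [Fintype V] (c : V → V → ℝ) (A : Finset V) : ℕ :=
  (Matrix.of fun (x : {x // x ∈ A}) (y : {y // y ∉ A}) =>
    if c x y = 0 then (0 : ZMod 2) else 1).rank

/-- If all capacities are `0` or `1`, a set of cut rank at most `r` has at most `2 ^ r` types of
outside capacities. -/
theorem typed_of_cutRank {V : Type*} [Fintype V] {c : V → V → ℝ}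
    (h01 : ∀ i j, c i j = 0 ∨ c i j = 1) {A : Finset V} {r : ℕ} (h : cutRank c A ≤ r) :
    Typed c (2 ^ r) 1 A := by
  classical
  let M : Matrix {x // x ∈ A} {y // y ∉ A} (ZMod 2) :=
    Matrix.of fun x y => if c x y = 0 then (0 : ZMod 2) else 1
  have hM : M.rank ≤ r := by
    have : cutRank c A = M.rank := by
      unfold cutRank
      congr!
    rw [← this]
    exact h
  let W : Submodule (ZMod 2) ({y // y ∉ A} → ZMod 2) := Submodule.span (ZMod 2) (Set.range M.row)
  have hW : Module.finrank (ZMod 2) W ≤ r := by
    rw [← Matrix.rank_eq_finrank_span_row]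
    exact hM
  have : Fintype W := Fintype.ofFinite W
  have hcard : Fintype.card W ≤ Fintype.card (Fin (2 ^ r)) := by
    rw [Module.card_eq_pow_finrank (K := ZMod 2) (V := W), ZMod.card, Fintype.card_fin]
    exact Nat.pow_le_pow_right (by norm_num) hW
  obtain ⟨e⟩ := Function.Embedding.nonempty_of_card_le hcard
  have hrow : ∀ x : {x // x ∈ A}, M.row x ∈ W := fun x => Submodule.subset_span ⟨x, rfl⟩
  refine ⟨fun x => if hx : x ∈ A then e ⟨M.row ⟨x, hx⟩, hrow _⟩ else ⟨0, by positivity⟩, ?_⟩
  intro a ha a' ha' haa b hb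
  beta_reduce at haa
  rw [dif_pos ha, dif_pos ha'] at haa
  have h1 : M.row ⟨a, ha⟩ = M.row ⟨a', ha'⟩ := congrArg Subtype.val (e.injective haa)
  have h2 : M ⟨a, ha⟩ ⟨b, hb⟩ = M ⟨a', ha'⟩ ⟨b, hb⟩ := congrFun h1 ⟨b, hb⟩
  simp only [M, Matrix.of_apply] at h2
  rcases h01 a b with h3 | h3 <;> rcases h01 a' b with h4 | h4
  · rw [h3, h4]; norm_num
  · rw [h3, h4]; norm_num
  · rw [h3, h4] at h2
    simp at h2
  · rw [h3, h4]; norm_num

/-- If at most `k` vertices of `A` have capacities to the outside, those capacities are a sum of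
`k` products of nonnegative functions. -/
theorem ranked_of_separator {V : Type*} {c : V → V → ℝ} (hc : ∀ i j, 0 ≤ c i j) {k : ℕ}
    {A X : Finset V} (hk : X.card ≤ k) (h0 : ∀ x ∈ A, x ∉ X → ∀ y ∉ A, c x y = 0) :
    Ranked c k 1 A := by
  classical
  obtain ⟨e⟩ : Nonempty ({x // x ∈ X} ↪ Fin k) :=
    Function.Embedding.nonempty_of_card_le (by simpa using hk)
  refine ⟨fun i x => if hx : x ∈ X then (if e ⟨x, hx⟩ = i then 1 else 0) else 0,
    fun i y => ∑ z : {x // x ∈ X}, if e z = i then c z y else 0, fun i x => ?_, fun i y => ?_,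
    fun x hx y hy => ?_⟩
  · beta_reduce
    split_ifs
    · exact zero_le_one
    · exact le_rfl
    · exact le_rfl
  · refine Finset.sum_nonneg fun z _ => ?_
    split_ifs
    · exact hc _ _
    · exact le_rfl
  · have hsum : ∑ i, (if hx : x ∈ X then (if e ⟨x, hx⟩ = i then (1 : ℝ) else 0) else 0) *
        (∑ z : {x // x ∈ X}, if e z = i then c z y else 0) = c x y := by
      by_cases hxX : x ∈ X
      · simp only [dif_pos hxX]
        rw [Finset.sum_eq_single (e ⟨x, hxX⟩)]
        · rw [if_pos rfl, one_mul, Finset.sum_eq_single ⟨x, hxX⟩]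
          · rw [if_pos rfl]
          · intro z _ hz
            rw [if_neg fun h => hz (e.injective h)]
          · intro h
            exact absurd (Finset.mem_univ _) h
        · intro i _ hi
          rw [if_neg (Ne.symm hi), zero_mul]
        · intro h
          exact absurd (Finset.mem_univ _) h
      · simp only [dif_neg hxX, zero_mul, Finset.sum_const_zero]
        exact (h0 x hx hxX y hy).symm
    rw [hsum, one_mul]
    exact ⟨le_rfl, le_rfl⟩

end Vale.Agent.P318.R2.H821
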