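import Vale.Agent.P318.R2.H344.Defs

/-!
# Centres for a set whose outside capacities have small nonnegative rank

Let the capacities between `A` and its complement be, up to the factor `H`, a sum of `k` products
`a i x * b i y` of nonnegative functions, and let `d` be a semimetric. A label `i` is linked if the
mean distance of its crossing pairs (with the weights `a i x * b i y`) is at most `ρ`. A linked
label has a centre `p i` outside `A` such that the mean distance of `A` (with the weights `a i`) to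
`p i` is at most that mean. Let `F` be the distance to the centres of the linked labels. Then
`min (F x) ρ`, summed over the crossing capacities, is at most `H` times the sum of the distances.
-/

open Finset

namespace Vale.Agent.P318.R2.H821

open Vale.Agent.P318.R2.H344

/-- Some point has a value at most the weighted mean. -/
theorem exists_le_mean {V : Type*} {B : Finset V} {b g : V → ℝ} (hb : ∀ y, 0 ≤ b y)
    (hB : 0 < ∑ y ∈ B, b y) : ∃ y ∈ B, (∑ z ∈ B, b z) * g y ≤ ∑ z ∈ B, b z * g z := by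
  have hne : B.Nonempty := by
    rcases B.eq_empty_or_nonempty with h | h
    · simp [h] at hB
    · exact h
  obtain ⟨y, hy, hmin⟩ := B.exists_min_image g hne
  refine ⟨y, hy, ?_⟩
  rw [Finset.sum_mul]
  exact Finset.sum_le_sum fun z hz => mul_le_mul_of_nonneg_left (hmin z hz) (hb z)

theorem swap_sum {V ι : Type*} [Fintype ι] (A B : Finset V) (f : ι → V → V → ℝ) :
    ∑ i, ∑ x ∈ A, ∑ y ∈ B, f i x y = ∑ x ∈ A, ∑ y ∈ B, ∑ i, f i x y := by
  rw [Finset.sum_comm]
  exact Finset.sum_congr rfl fun x _ => Finset.sum_comm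

/-- One label: with a centre if the label is linked, and without one if not. -/
theorem label_le {V : Type*} {A B : Finset V} {a b : V → ℝ} {d : V → V → ℝ}
    (ha : ∀ x, 0 ≤ a x) (hb : ∀ y, 0 ≤ b y) (hd : ∀ x y, 0 ≤ d x y) {F : V → ℝ} {ρ : ℝ} {p : V}
    (hp : 0 < ∑ y ∈ B, b y →
      (∑ y ∈ B, b y) * ∑ x ∈ A, a x * d x p ≤ ∑ x ∈ A, ∑ y ∈ B, a x * b y * d x y)
    (hF : ∑ x ∈ A, ∑ y ∈ B, a x * b y * d x y ≤ ρ * ((∑ x ∈ A, a x) * ∑ y ∈ B, b y) →
      ∀ x, F x ≤ d x p) :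
    ∑ x ∈ A, ∑ y ∈ B, a x * b y * min (F x) ρ ≤ ∑ x ∈ A, ∑ y ∈ B, a x * b y * d x y := by
  have hfac : ∑ x ∈ A, ∑ y ∈ B, a x * b y * min (F x) ρ
      = (∑ y ∈ B, b y) * ∑ x ∈ A, a x * min (F x) ρ := by
    rw [Finset.mul_sum]
    refine Finset.sum_congr rfl fun x _ => ?_
    rw [Finset.sum_mul]
    exact Finset.sum_congr rfl fun y _ => by ring
  have hB0 : 0 ≤ ∑ y ∈ B, b y := Finset.sum_nonneg fun y _ => hb y
  rw [hfac]
  by_cases hlink : ∑ x ∈ A, ∑ y ∈ B, a x * b y * d x y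
      ≤ ρ * ((∑ x ∈ A, a x) * ∑ y ∈ B, b y)
  · rcases hB0.eq_or_lt with h0 | h0
    · rw [← h0, zero_mul]
      exact Finset.sum_nonneg fun x _ => Finset.sum_nonneg fun y _ =>
        mul_nonneg (mul_nonneg (ha x) (hb y)) (hd x y)
    · refine le_trans ?_ (hp h0)
      refine mul_le_mul_of_nonneg_left ?_ hB0
      exact Finset.sum_le_sum fun x _ =>
        mul_le_mul_of_nonneg_left ((min_le_left _ _).trans (hF hlink x)) (ha x)
  · rw [not_le] at hlink
    refine le_trans ?_ hlink.le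
    have h1 : ∑ x ∈ A, a x * min (F x) ρ ≤ ∑ x ∈ A, a x * ρ :=
      Finset.sum_le_sum fun x _ => mul_le_mul_of_nonneg_left (min_le_right _ _) (ha x)
    calc (∑ y ∈ B, b y) * ∑ x ∈ A, a x * min (F x) ρ
        ≤ (∑ y ∈ B, b y) * ∑ x ∈ A, a x * ρ := mul_le_mul_of_nonneg_left h1 hB0
      _ = ρ * ((∑ x ∈ A, a x) * ∑ y ∈ B, b y) := by
          rw [← Finset.sum_mul]; ring

/-- The distance to the centres of the linked labels. -/
theorem centres {V : Type*} [Fintype V] [DecidableEq V] [Nonempty V] {c d : V → V → ℝ}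
    (hd : ∀ x y, 0 ≤ d x y) (_hs : ∀ x y, d x y = d y x) (ht : ∀ x y z, d x z ≤ d x y + d y z)
    {A : Finset V} {k : ℕ} {H : ℝ} (hH : 1 ≤ H) (hr : Ranked c k H A) {ρ : ℝ} (hρ : 0 < ρ) :
    ∃ (F : V → ℝ) (p : Fin k → V), (∀ x, 0 ≤ F x) ∧ (∀ x y, F x - F y ≤ d x y) ∧
      (∀ x, F x < 2 * ρ → ∃ i, d x (p i) < 2 * ρ) ∧
      ∑ x ∈ A, ∑ y ∈ Aᶜ, c x y * min (F x) ρ ≤ H * ∑ x ∈ A, ∑ y ∈ Aᶜ, c x y * d x y := by
  classical
  obtain ⟨a, b, ha, hb, hab⟩ := hr
  have hp : ∀ i, ∃ q : V, 0 < ∑ y ∈ Aᶜ, b i y →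
      (∑ y ∈ Aᶜ, b i y) * ∑ x ∈ A, a i x * d x q
        ≤ ∑ x ∈ A, ∑ y ∈ Aᶜ, a i x * b i y * d x y := by
    intro i
    by_cases h0 : 0 < ∑ y ∈ Aᶜ, b i y
    · obtain ⟨q, _, hq⟩ := exists_le_mean (g := fun y => ∑ x ∈ A, a i x * d x y) (hb i) h0
      refine ⟨q, fun _ => hq.trans (le_of_eq ?_)⟩
      rw [Finset.sum_comm]
      refine Finset.sum_congr rfl fun y _ => ?_
      rw [Finset.mul_sum]
      exact Finset.sum_congr rfl fun x _ => by ring
    · exact ⟨Classical.arbitrary V, fun h => absurd h h0⟩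
  choose p hp using hp
  let T : Finset (Fin k) := univ.filter fun i =>
    ∑ x ∈ A, ∑ y ∈ Aᶜ, a i x * b i y * d x y ≤ ρ * ((∑ x ∈ A, a i x) * ∑ y ∈ Aᶜ, b i y)
  let F : V → ℝ := fun x => T.fold min (2 * ρ) fun i => d x (p i)
  have hFle : ∀ x, ∀ i ∈ T, F x ≤ d x (p i) := fun x i hi =>
    (Finset.fold_min_le _).2 (Or.inr ⟨i, hi, le_rfl⟩)
  have hF2 : ∀ x, F x ≤ 2 * ρ := fun x => (Finset.fold_min_le _).2 (Or.inl le_rfl)
  have hF0 : ∀ x, 0 ≤ F x := fun x =>
    (Finset.le_fold_min _).2 ⟨by positivity, fun i _ => hd _ _⟩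
  refine ⟨F, p, hF0, fun x y => ?_, fun x hx => ?_, ?_⟩
  · have h : F x - d x y ≤ F y := by
      refine (Finset.le_fold_min _).2 ⟨by linarith [hF2 x, hd x y], fun i hi => ?_⟩
      linarith [hFle x i hi, ht x y (p i)]
    linarith
  · rcases (Finset.fold_min_lt _).1 hx with h | ⟨i, _, hi⟩
    · exact absurd h (lt_irrefl _)
    · exact ⟨i, hi⟩
  · have hH0 : (0 : ℝ) ≤ H := by linarith
    have hm : ∀ x, 0 ≤ min (F x) ρ := fun x => le_min (hF0 x) hρ.le
    calc ∑ x ∈ A, ∑ y ∈ Aᶜ, c x y * min (F x) ρ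
        ≤ ∑ x ∈ A, ∑ y ∈ Aᶜ, (H * ∑ i, a i x * b i y) * min (F x) ρ := by
          refine Finset.sum_le_sum fun x hx => Finset.sum_le_sum fun y hy => ?_
          exact mul_le_mul_of_nonneg_right (hab x hx y (Finset.mem_compl.1 hy)).2 (hm x)
      _ = H * ∑ i, ∑ x ∈ A, ∑ y ∈ Aᶜ, a i x * b i y * min (F x) ρ := by
          rw [swap_sum, Finset.mul_sum]
          refine Finset.sum_congr rfl fun x _ => ?_
          rw [Finset.mul_sum]
          refine Finset.sum_congr rfl fun y _ => ?_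
          rw [← Finset.sum_mul, mul_assoc]
      _ ≤ H * ∑ i, ∑ x ∈ A, ∑ y ∈ Aᶜ, a i x * b i y * d x y := by
          refine mul_le_mul_of_nonneg_left (Finset.sum_le_sum fun i _ => ?_) hH0
          exact label_le (ha i) (hb i) hd (hp i) fun hl x =>
            hFle x i (Finset.mem_filter.2 ⟨Finset.mem_univ i, hl⟩)
      _ ≤ H * ∑ x ∈ A, ∑ y ∈ Aᶜ, c x y * d x y := by
          refine mul_le_mul_of_nonneg_left ?_ hH0
          rw [swap_sum]
          refine Finset.sum_le_sum fun x hx => Finset.sum_le_sum fun y hy => ?_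
          rw [← Finset.sum_mul]
          exact mul_le_mul_of_nonneg_right (hab x hx y (Finset.mem_compl.1 hy)).1 (hd x y)

end Vale.Agent.P318.R2.H821
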