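import Vale.Agent.P318.R2.H344.Defs

/-!
# Few rows or few columns

If all capacities between `A` and its complement have an end in a set of `k` vertices, they are a
sum of `k` products of nonnegative functions.
-/

open Finset

namespace Vale.Agent.P318.R2.H821

open Vale.Agent.P318.R2.H344

/-- Labels from any type with at most `k` elements. -/
theorem ranked_of_fintype {V ι : Type*} [Fintype ι] {c : V → V → ℝ} {k : ℕ} {H : ℝ}
    {A : Finset V} (hk : Fintype.card ι ≤ k) (a b : ι → V → ℝ) (ha : ∀ i x, 0 ≤ a i x)
    (hb : ∀ i y, 0 ≤ b i y)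
    (h : ∀ x ∈ A, ∀ y ∉ A, ∑ i, a i x * b i y ≤ c x y ∧ c x y ≤ H * ∑ i, a i x * b i y) :
    Ranked c k H A := by
  classical
  obtain ⟨e⟩ : Nonempty (ι ↪ Fin k) :=
    Function.Embedding.nonempty_of_card_le (by simpa using hk)
  have hext : ∀ g : ι → V → ℝ, (∀ i x, 0 ≤ g i x) →
      ∀ (i : Fin k) (x : V), 0 ≤ Function.extend e g 0 i x := by
    intro g hg i x
    by_cases hi : ∃ z, e z = i
    · obtain ⟨z, rfl⟩ := hi
      rw [e.injective.extend_apply]
      exact hg z x
    · rw [Function.extend_apply' _ _ _ hi]
      exact le_rfl
  refine ⟨Function.extend e a 0, Function.extend e b 0, hext a ha, hext b hb, ?_⟩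
  intro x hx y hy
  have hsum : ∑ i, Function.extend e a 0 i x * Function.extend e b 0 i y
      = ∑ z, a z x * b z y := by
    symm
    refine Fintype.sum_of_injective e e.injective _ _ (fun i hi => ?_) (fun z => ?_)
    · rw [Function.extend_apply' _ _ _ hi, Pi.zero_apply, Pi.zero_apply, zero_mul]
    · rw [e.injective.extend_apply, e.injective.extend_apply]
  rw [hsum]
  exact h x hx y hy

/-- If all capacities between `A` and its complement have an end in a set `X` of at most `k`
vertices, they are a sum of `k` products of nonnegative functions. -/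
theorem ranked_of_cover {V : Type*} {c : V → V → ℝ} (hc : ∀ i j, 0 ≤ c i j) {k : ℕ}
    {A X : Finset V} (hk : X.card ≤ k)
    (h0 : ∀ x ∈ A, x ∉ X → ∀ y ∉ A, y ∉ X → c x y = 0) : Ranked c k 1 A := by
  classical
  let α : {z // z ∈ X} → V → ℝ := fun z x =>
    if (z : V) ∈ A then (if x = z then 1 else 0) else (if x ∈ X then 0 else c x z)
  let β : {z // z ∈ X} → V → ℝ := fun z y =>
    if (z : V) ∈ A then c z y else (if y = z then 1 else 0)
  refine ranked_of_fintype (ι := {z // z ∈ X}) (by simpa using hk) α β (fun z x => ?_)
    (fun z y => ?_) (fun x hx y hy => ?_)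
  · simp only [α]
    split_ifs
    · exact zero_le_one
    · exact le_rfl
    · exact le_rfl
    · exact hc _ _
  · simp only [β]
    split_ifs
    · exact hc _ _
    · exact zero_le_one
    · exact le_rfl
  · have hsum : ∑ z, α z x * β z y = c x y := by
      by_cases hxX : x ∈ X
      · rw [Finset.sum_eq_single ⟨x, hxX⟩]
        · simp only [α, β, if_pos hx, if_true, one_mul]
        · intro z _ hz
          have hzx : x ≠ (z : V) := fun h => hz (Subtype.ext h.symm)
          simp only [α, if_pos hxX, if_neg hzx]
          split_ifs <;> exact zero_mul _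
        · intro h
          exact absurd (Finset.mem_univ _) h
      · by_cases hyX : y ∈ X
        · rw [Finset.sum_eq_single ⟨y, hyX⟩]
          · simp only [α, β, if_neg hy, if_neg hxX, if_true, mul_one]
          · intro z _ hz
            have hzy : y ≠ (z : V) := fun h => hz (Subtype.ext h.symm)
            have hxz : x ≠ (z : V) := fun h => hxX (h ▸ z.2)
            simp only [α, β, if_neg hzy, if_neg hxz]
            split_ifs <;> simp
          · intro h
            exact absurd (Finset.mem_univ _) h
        · rw [h0 x hx hxX y hy hyX]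
          refine Finset.sum_eq_zero fun z _ => ?_
          have hzy : y ≠ (z : V) := fun h => hyX (h ▸ z.2)
          have hxz : x ≠ (z : V) := fun h => hxX (h ▸ z.2)
          simp only [α, β, if_neg hzy, if_neg hxz]
          split_ifs <;> simp
    rw [hsum, one_mul]
    exact ⟨le_rfl, le_rfl⟩

end Vale.Agent.P318.R2.H821
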