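import Vale.Agent.P318.R2.H344.Final

/-!
# Robust form: an error in the crossing capacities

The capacities between `A` and its complement need to be a sum of `k` products of nonnegative
functions only up to an error whose sum is a small multiple of `phi c * n ^ 2`.
-/

open Finset

set_option linter.unusedSectionVars false

namespace Vale.Agent.P318.R2.H821

open Vale.Agent.P318.H867 Vale.Agent.P318.H724 Vale.Agent.P318.R2.H344 Vale.Agent.P318.R2.H305

variable {V : Type*} [Fintype V] [DecidableEq V] [Nontrivial V] {c d : V → V → ℝ}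

/-- The energy of a nonnegative function supported in `A`, with an error. -/
lemma energy_bound_err (hc : ∀ i j, 0 ≤ c i j) (hsym : ∀ i j, c i j = c j i)
    (hd : ∀ x y, 0 ≤ d x y) (hs : ∀ x y, d x y = d y x)
    {A : Finset V} {H : ℝ} (hH : 1 ≤ H) {h : V → ℝ} (hh0 : ∀ x, 0 ≤ h x)
    (hA0 : ∀ x ∉ A, h x = 0) (hlip : ∀ x ∈ A, ∀ y ∈ A, |h x - h y| ≤ d x y) {E : ℝ}
    (hout : ∑ x ∈ A, ∑ y ∈ Aᶜ, c x y * h x ≤ H * ∑ x ∈ A, ∑ y ∈ Aᶜ, c x y * d x y + E) :
    ∑ x, ∑ y, c x y * |h x - h y| ≤ H * ∑ x, ∑ y, c x y * d x y + 2 * E := by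
  have split : ∀ g : V → V → ℝ, ∑ x, ∑ y, g x y =
      ∑ x ∈ A, ∑ y ∈ A, g x y + ∑ x ∈ A, ∑ y ∈ Aᶜ, g x y + ∑ x ∈ Aᶜ, ∑ y ∈ A, g x y +
        ∑ x ∈ Aᶜ, ∑ y ∈ Aᶜ, g x y := by
    intro g
    rw [← sum_add_sum_compl A (fun x => ∑ y, g x y)]
    have : ∀ x, ∑ y, g x y = ∑ y ∈ A, g x y + ∑ y ∈ Aᶜ, g x y := fun x =>
      (sum_add_sum_compl A (fun y => g x y)).symm
    simp only [this, sum_add_distrib]
    ring
  rw [split (fun x y => c x y * |h x - h y|), split (fun x y => c x y * d x y)]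
  have hAA : ∑ x ∈ A, ∑ y ∈ A, c x y * |h x - h y| ≤ ∑ x ∈ A, ∑ y ∈ A, c x y * d x y :=
    sum_le_sum fun x hx => sum_le_sum fun y hy =>
      mul_le_mul_of_nonneg_left (hlip x hx y hy) (hc x y)
  have hCC : ∑ x ∈ Aᶜ, ∑ y ∈ Aᶜ, c x y * |h x - h y| = 0 := by
    refine sum_eq_zero fun x hx => sum_eq_zero fun y hy => ?_
    rw [hA0 x (mem_compl.1 hx), hA0 y (mem_compl.1 hy), sub_zero, abs_zero, mul_zero]
  have hAC : ∑ x ∈ A, ∑ y ∈ Aᶜ, c x y * |h x - h y| = ∑ x ∈ A, ∑ y ∈ Aᶜ, c x y * h x := by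
    refine sum_congr rfl fun x _ => sum_congr rfl fun y hy => ?_
    rw [hA0 y (mem_compl.1 hy), sub_zero, abs_of_nonneg (hh0 x)]
  have hCA : ∑ x ∈ Aᶜ, ∑ y ∈ A, c x y * |h x - h y| = ∑ x ∈ A, ∑ y ∈ Aᶜ, c x y * h x := by
    rw [sum_comm]
    refine sum_congr rfl fun y _ => sum_congr rfl fun x hx => ?_
    rw [hA0 x (mem_compl.1 hx), zero_sub, abs_neg, abs_of_nonneg (hh0 y), hsym x y]
  have hCA2 : ∑ x ∈ Aᶜ, ∑ y ∈ A, c x y * d x y = ∑ x ∈ A, ∑ y ∈ Aᶜ, c x y * d x y := by
    rw [sum_comm]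
    refine sum_congr rfl fun y _ => sum_congr rfl fun x _ => ?_
    rw [hsym x y, hs x y]
  have n1 : 0 ≤ ∑ x ∈ A, ∑ y ∈ A, c x y * d x y :=
    sum_nonneg fun x _ => sum_nonneg fun y _ => mul_nonneg (hc x y) (hd x y)
  have n2 : 0 ≤ ∑ x ∈ Aᶜ, ∑ y ∈ Aᶜ, c x y * d x y :=
    sum_nonneg fun x _ => sum_nonneg fun y _ => mul_nonneg (hc x y) (hd x y)
  rw [hCC, hAC, hCA, hCA2]
  nlinarith

theorem good_rank_err (hc : ∀ i j, 0 ≤ c i j) (hsym : ∀ i j, c i j = c j i)
    (hd : ∀ x y, 0 ≤ d x y) (hs : ∀ x y, d x y = d y x)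
    (ht : ∀ x y z, d x z ≤ d x y + d y z) {A : Finset V}
    (hA : Fintype.card V ≤ 3 * A.card) (hA2 : 3 * A.card ≤ 2 * Fintype.card V)
    {k : ℕ} {H : ℝ} (hH : 1 ≤ H) {ρ : ℝ} (hρ0 : 0 < ρ) {E : ℝ}
    (hE : 36 * E ≤ phi c * (Fintype.card V : ℝ) ^ 2)
    (hcen : ∃ (F : V → ℝ) (p : Fin k → V), (∀ x, 0 ≤ F x) ∧ (∀ x y, F x - F y ≤ d x y) ∧
      (∀ x, F x < 2 * ρ → ∃ i, d x (p i) < 2 * ρ) ∧
      ∑ x ∈ A, ∑ y ∈ Aᶜ, c x y * min (F x) ρ
        ≤ H * ∑ x ∈ A, ∑ y ∈ Aᶜ, c x y * d x y + E * ρ)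
    {τ : ℝ} (hτρ : τ = 4 * ρ) :
    phi c * (τ * (Fintype.card V : ℝ) ^ 2) ≤ 768 * H * ∑ x, ∑ y, c x y * d x y ∨
      ∃ Gd : Finset V, 15 * (Fintype.card V : ℝ) ≤ 16 * Gd.card ∧
        ∀ x ∈ Gd, Fintype.card V ≤ 32 * k * (ball d x τ).card := by
  classical
  obtain ⟨F, p, hF0, hFd, hFp, hFout⟩ := hcen
  set Q := ∑ x, ∑ y, c x y * d x y with hQ
  have hQ0 : 0 ≤ Q := sum_nonneg fun x _ => sum_nonneg fun y _ => mul_nonneg (hc x y) (hd x y)
  set n := Fintype.card V with hn
  have hn0 : (0 : ℝ) < n := by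
    have : 0 < n := Fintype.card_pos
    exact_mod_cast this
  have hphi := phi_nonneg hc
  have hHQ : Q ≤ H * Q := by nlinarith
  have hFlip : ∀ x y, |F x - F y| ≤ d x y := by
    intro x y
    have h1 := hFd x y
    have h2 := hFd y x
    rw [hs y x] at h2
    rw [abs_le]
    constructor <;> linarith
  -- the first function
  set h : V → ℝ := fun x => if x ∈ A then min (F x) ρ else 0 with hh
  have hh0 : ∀ x, 0 ≤ h x := by
    intro x
    simp only [hh]
    split_ifs
    · exact le_min (hF0 x) hρ0.le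
    · exact le_rfl
  have hen : ∑ x, ∑ y, c x y * |h x - h y| ≤ H * Q + 2 * (E * ρ) := by
    refine energy_bound_err hc hsym hd hs (A := A) hH hh0 (fun x hx => if_neg hx) ?_ ?_
    · intro x hx y hy
      simp only [hh, if_pos hx, if_pos hy]
      exact (min_lip _ _ _).trans (hFlip x y)
    · refine le_trans (le_of_eq ?_) hFout
      refine sum_congr rfl fun x hx => sum_congr rfl fun y _ => ?_
      simp only [hh, if_pos hx]
  have hAr : (n : ℝ) ≤ 3 * A.card := by exact_mod_cast hA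
  have hAr2 : 3 * (A.card : ℝ) ≤ 2 * n := by exact_mod_cast hA2
  have hAc : (Aᶜ.card : ℝ) = n - A.card := by
    rw [card_compl, Nat.cast_sub (card_le_univ A)]
  set P := A.filter fun a => ρ ≤ F a with hP
  by_cases hcase1 : (n : ℝ) / 6 ≤ P.card
  · left
    have e1 : 2 * ((P.card : ℝ) * Aᶜ.card * ρ) ≤ ∑ x, ∑ y, |h x - h y| := by
      refine sum_abs_ge ?_ ?_
      · intro x hx y hy
        rw [hP, mem_filter] at hx
        have hy' := mem_compl.1 hy
        simp only [hh, if_pos hx.1, if_neg hy', sub_zero]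
        exact le_min hx.2 le_rfl
      · refine disjoint_left.2 fun x hx hx2 => ?_
        exact (mem_compl.1 hx2) (mem_filter.1 hx).1
    have e2 := coarea hc hsym h
    have e3 : (n : ℝ) / 6 * (n / 3) ≤ (P.card : ℝ) * Aᶜ.card := by
      refine mul_le_mul hcase1 ?_ (by positivity) (by positivity)
      rw [hAc]; linarith
    have e4 : phi c * (2 * ((n : ℝ) / 6 * (n / 3) * ρ)) ≤ H * Q + 2 * (E * ρ) := by
      refine le_trans (mul_le_mul_of_nonneg_left ?_ hphi) (e2.trans hen)
      refine le_trans ?_ e1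
      have := mul_le_mul_of_nonneg_right e3 hρ0.le
      linarith
    rw [hτρ]
    have e5 : phi c * (2 * ((n : ℝ) / 6 * (n / 3) * ρ)) = phi c * (4 * ρ * (n : ℝ) ^ 2) / 36 := by
      ring
    have e6 : 36 * E * ρ ≤ phi c * (n : ℝ) ^ 2 * ρ := mul_le_mul_of_nonneg_right hE hρ0.le
    have e7 : phi c * (n : ℝ) ^ 2 * ρ = phi c * (4 * ρ * (n : ℝ) ^ 2) / 4 := by ring
    rw [e5] at e4
    rw [e7] at e6
    have e8 : 0 ≤ H * Q := le_trans hQ0 hHQ
    have e9 : phi c * (4 * ρ * (n : ℝ) ^ 2) ≤ 72 * (H * Q) := by linarith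
    linarith
  · rw [not_le] at hcase1
    -- the second function
    set g : V → ℝ := fun x => max 0 (min (F x - ρ) ρ) with hg
    have hglip : ∀ x y, |g x - g y| ≤ d x y := fun x y =>
      (trunc_lip _ _ _ _).trans (hFlip x y)
    set Lo := univ.filter fun x => F x < ρ with hLo
    set Hi := univ.filter fun x => 2 * ρ ≤ F x with hHi
    have hLoc : (n : ℝ) / 6 ≤ Lo.card := by
      have e1 : A.card ≤ P.card + Lo.card := by
        rw [← card_filter_add_card_filter_not (s := A) (fun a => ρ ≤ F a), ← hP]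
        refine Nat.add_le_add_left (card_le_card ?_) _
        intro x hx
        rw [mem_filter] at hx
        rw [hLo, mem_filter]
        exact ⟨mem_univ _, not_le.1 hx.2⟩
      have e2 : (A.card : ℝ) ≤ P.card + Lo.card := by exact_mod_cast e1
      linarith
    by_cases hcase2 : (n : ℝ) / 32 ≤ Hi.card
    · left
      have e1 : 2 * ((Hi.card : ℝ) * Lo.card * ρ) ≤ ∑ x, ∑ y, |g x - g y| := by
        refine sum_abs_ge ?_ ?_
        · intro x hx y hy
          rw [hHi, mem_filter] at hx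
          rw [hLo, mem_filter] at hy
          have a1 : ρ ≤ g x := le_max_of_le_right (le_min (by linarith [hx.2]) le_rfl)
          have a2 : g y ≤ 0 := max_le le_rfl ((min_le_left _ _).trans (by linarith [hy.2]))
          linarith
        · refine disjoint_left.2 fun x hx hx2 => ?_
          rw [hHi, mem_filter] at hx
          rw [hLo, mem_filter] at hx2
          linarith [hx.2, hx2.2]
      have e2 := lip_bound (c := c) (d := d) hc hsym hglip
      have e3 : (n : ℝ) / 32 * (n / 6) ≤ (Hi.card : ℝ) * Lo.card :=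
        mul_le_mul hcase2 hLoc (by positivity) (by positivity)
      have e4 : phi c * (2 * ((n : ℝ) / 32 * (n / 6) * ρ)) ≤ Q := by
        refine le_trans (mul_le_mul_of_nonneg_left ?_ hphi) e2
        refine le_trans ?_ e1
        have := mul_le_mul_of_nonneg_right e3 hρ0.le
        linarith
      rw [hτρ]
      have e5 : phi c * (4 * ρ * (n : ℝ) ^ 2) =
          384 * (phi c * (2 * ((n : ℝ) / 32 * (n / 6) * ρ))) := by
        ring
      rw [e5]
      nlinarith
    · right
      rw [not_le] at hcase2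
      set W := univ.filter fun x => F x < 2 * ρ with hW
      have e4 : W.card + Hi.card = n := by
        rw [hn, ← card_univ, ← card_filter_add_card_filter_not (s := (univ : Finset V))
          (fun x => F x < 2 * ρ)]
        congr 2
        rw [hHi]
        refine filter_congr fun x _ => ?_
        exact not_lt.symm
      have e4' : (W.card : ℝ) + Hi.card = n := by exact_mod_cast e4
      have hWne : W.Nonempty := by
        rw [← card_pos]
        have : (0 : ℝ) < W.card := by linarith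
        exact_mod_cast this
      obtain ⟨x0, hx0⟩ := hWne
      obtain ⟨i0, -⟩ := hFp x0 (mem_filter.1 hx0).2
      have hk : 0 < k := (Nat.zero_le _).trans_lt i0.2
      have hex2 : ∀ x, ∃ i : Fin k, x ∈ W → d x (p i) < 2 * ρ := by
        intro x
        by_cases hx : x ∈ W
        · obtain ⟨i, hi⟩ := hFp x (mem_filter.1 hx).2
          exact ⟨i, fun _ => hi⟩
        · exact ⟨i0, fun h => absurd h hx⟩
      choose π hπ using hex2
      refine ⟨W.filter fun x => ¬ (32 * k * (W.filter fun y => π y = π x).card < n), ?_, ?_⟩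
      · have e1 := small_classes W π (n := n)
        have e2 : 32 * (W.filter fun x => 32 * k * (W.filter fun y => π y = π x).card < n).card
            ≤ n := by
          refine Nat.le_of_mul_le_mul_left ?_ hk
          calc _ = 32 * k *
                (W.filter fun x => 32 * k * (W.filter fun y => π y = π x).card < n).card := by ring
            _ ≤ k * n := e1
        have e3 := card_filter_add_card_filter_not (s := W)
          (fun x => 32 * k * (W.filter fun y => π y = π x).card < n)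
        set r1 := (W.filter fun x => 32 * k * (W.filter fun y => π y = π x).card < n).card
        set r2 := (W.filter fun x => ¬ (32 * k * (W.filter fun y => π y = π x).card < n)).card
        have e2' : 32 * (r1 : ℝ) ≤ n := by exact_mod_cast e2
        have e3' : (r1 : ℝ) + r2 = W.card := by exact_mod_cast e3
        linarith
      · intro x hx
        rw [mem_filter] at hx
        have hx2 := not_lt.1 hx.2
        refine hx2.trans (Nat.mul_le_mul_left _ (card_le_card ?_))
        intro y hy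
        rw [mem_filter] at hy
        rw [mem_ball, hτρ]
        have a1 := hπ x hx.1
        have a2 := hπ y hy.1
        rw [hy.2] at a2
        have a3 := ht x (p (π x)) y
        rw [hs (p (π x)) y] at a3
        linarith


/-- The capacities between `A` and its complement are, up to the factor `H` and up to a total
error of `phi c * n ^ 2 / 36`, a sum of `k` products of nonnegative functions. -/
def NearRanked (c : V → V → ℝ) (k : ℕ) (H : ℝ) (A : Finset V) : Prop :=
  ∃ a b : Fin k → V → ℝ, (∀ i x, 0 ≤ a i x) ∧ (∀ i y, 0 ≤ b i y) ∧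
    36 * ∑ x ∈ A, ∑ y ∈ Aᶜ, (max 0 (c x y - H * ∑ i, a i x * b i y) +
      2 * H * max 0 (∑ i, a i x * b i y - c x y)) ≤ phi c * (Fintype.card V : ℝ) ^ 2

lemma nearRanked_of_ranked (hc : ∀ i j, 0 ≤ c i j) {k : ℕ} {H : ℝ} {A : Finset V}
    (h : Ranked c k H A) : NearRanked c k H A := by
  obtain ⟨a, b, ha, hb, hab⟩ := h
  refine ⟨a, b, ha, hb, ?_⟩
  have h0 : ∑ x ∈ A, ∑ y ∈ Aᶜ, (max 0 (c x y - H * ∑ i, a i x * b i y) +
      2 * H * max 0 (∑ i, a i x * b i y - c x y)) = 0 := by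
    refine sum_eq_zero fun x hx => sum_eq_zero fun y hy => ?_
    obtain ⟨h1, h2⟩ := hab x hx y (mem_compl.1 hy)
    rw [max_eq_left (by linarith), max_eq_left (by linarith), mul_zero, add_zero]
  rw [h0, mul_zero]
  exact mul_nonneg (phi_nonneg hc) (sq_nonneg _)

/-- **Robust alternative.** -/
theorem robust_alternative (hc : ∀ i j, 0 ≤ c i j) (hsym : ∀ i j, c i j = c j i) {A : Finset V}
    (hA : Fintype.card V ≤ 3 * A.card) (hA2 : 3 * A.card ≤ 2 * Fintype.card V)
    {k : ℕ} {H : ℝ} (hH : 1 ≤ H) (hr : NearRanked c k H A) : Alternative c k H := by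
  classical
  obtain ⟨a, b, ha, hb, herr⟩ := hr
  intro d hd hs ht τ hτ
  set s : V → V → ℝ := fun x y => ∑ i, a i x * b i y with hsdef
  have hs0 : ∀ x y, 0 ≤ s x y := fun x y => sum_nonneg fun i _ => mul_nonneg (ha i x) (hb i y)
  have hρ : 0 < τ / 4 := by positivity
  set ρ : ℝ := τ / 4 with hρdef
  -- the truncated semimetric
  set t : V → V → ℝ := fun x y => min (d x y) (2 * ρ) with htdef
  have ht0 : ∀ x y, 0 ≤ t x y := fun x y => le_min (hd x y) (by positivity)
  have hts : ∀ x y, t x y = t y x := fun x y => by simp only [htdef, hs x y]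
  have htt : ∀ x y z, t x z ≤ t x y + t y z := by
    intro x y z
    simp only [htdef]
    rcases le_total (d x y) (2 * ρ) with h1 | h1
    · rcases le_total (d y z) (2 * ρ) with h2 | h2
      · rw [min_eq_left h1, min_eq_left h2]
        exact (min_le_left _ _).trans (ht x y z)
      · rw [min_eq_right h2]
        have h3 : 0 ≤ min (d x y) (2 * ρ) := le_min (hd x y) (by positivity)
        linarith [min_le_right (d x z) (2 * ρ)]
    · rw [min_eq_right h1]
      have h3 : 0 ≤ min (d y z) (2 * ρ) := le_min (hd y z) (by positivity)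
      linarith [min_le_right (d x z) (2 * ρ)]
  have htd : ∀ x y, t x y ≤ d x y := fun x y => min_le_left _ _
  have ht2 : ∀ x y, t x y ≤ 2 * ρ := fun x y => min_le_right _ _
  have hrank : Ranked s k 1 A := ⟨a, b, ha, hb, fun x _ y _ => ⟨le_rfl, by rw [one_mul]⟩⟩
  obtain ⟨F, p, hF0, hFt, hFp, hFs⟩ := centres ht0 hts htt le_rfl hrank hρ
  have hmin : ∀ x, 0 ≤ min (F x) ρ := fun x => le_min (hF0 x) hρ.le
  set E : ℝ := ∑ x ∈ A, ∑ y ∈ Aᶜ, (max 0 (c x y - H * s x y) + 2 * H * max 0 (s x y - c x y))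
    with hE
  have hH0 : 0 ≤ H := by linarith
  refine good_rank_err hc hsym hd hs ht hA hA2 hH hρ herr
    ⟨F, p, hF0, fun x y => (hFt x y).trans (htd x y), fun x hx => ?_, ?_⟩ (by ring)
  · obtain ⟨i, hi⟩ := hFp x hx
    refine ⟨i, ?_⟩
    rcases min_lt_iff.1 hi with h | h
    · exact h
    · exact absurd h (lt_irrefl _)
  · rw [one_mul] at hFs
    have h1 : ∑ x ∈ A, ∑ y ∈ Aᶜ, c x y * min (F x) ρ ≤
        H * ∑ x ∈ A, ∑ y ∈ Aᶜ, s x y * min (F x) ρ +
          ρ * ∑ x ∈ A, ∑ y ∈ Aᶜ, max 0 (c x y - H * s x y) := by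
      rw [mul_sum, mul_sum, ← sum_add_distrib]
      refine sum_le_sum fun x _ => ?_
      rw [mul_sum, mul_sum, ← sum_add_distrib]
      refine sum_le_sum fun y _ => ?_
      have e1 : c x y - H * s x y ≤ max 0 (c x y - H * s x y) := le_max_right _ _
      have e0 : 0 ≤ max 0 (c x y - H * s x y) := le_max_left _ _
      have e2 : min (F x) ρ ≤ ρ := min_le_right _ _
      have e3 := hmin x
      nlinarith [mul_le_mul_of_nonneg_right e1 e3, mul_le_mul_of_nonneg_left e2 e0]
    have h2 : ∑ x ∈ A, ∑ y ∈ Aᶜ, s x y * t x y ≤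
        ∑ x ∈ A, ∑ y ∈ Aᶜ, c x y * d x y +
          2 * ρ * ∑ x ∈ A, ∑ y ∈ Aᶜ, max 0 (s x y - c x y) := by
      rw [mul_sum, ← sum_add_distrib]
      refine sum_le_sum fun x _ => ?_
      rw [mul_sum, ← sum_add_distrib]
      refine sum_le_sum fun y _ => ?_
      have e1 : s x y - c x y ≤ max 0 (s x y - c x y) := le_max_right _ _
      have e0 : 0 ≤ max 0 (s x y - c x y) := le_max_left _ _
      have e2 := ht2 x y
      have e3 := ht0 x y
      have e4 := mul_le_mul_of_nonneg_left (htd x y) (hc x y)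
      nlinarith [mul_le_mul_of_nonneg_right e1 e3, mul_le_mul_of_nonneg_left e2 e0]
    have h3 : E = ∑ x ∈ A, ∑ y ∈ Aᶜ, max 0 (c x y - H * s x y) +
        2 * H * ∑ x ∈ A, ∑ y ∈ Aᶜ, max 0 (s x y - c x y) := by
      rw [hE, mul_sum, ← sum_add_distrib]
      refine sum_congr rfl fun x _ => ?_
      rw [mul_sum, ← sum_add_distrib]
    have h4 := mul_le_mul_of_nonneg_left (hFs.trans h2) hH0
    rw [h3]
    linarith

/-- One balanced set of small nonnegative rank up to a small error bounds the gap. -/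
theorem main_near (hc : ∀ i j, 0 ≤ c i j) (hsym : ∀ i j, c i j = c j i) {k : ℕ}
    (hk : 1 ≤ k) {H : ℝ} (hH : 1 ≤ H) {A : Finset V} (hA : Fintype.card V ≤ 3 * A.card)
    (hA2 : 3 * A.card ≤ 2 * Fintype.card V) (hr : NearRanked c k H A) :
    phi c ≤ 100000000000000 * H * Real.sqrt (1 + (Nat.log 2 k : ℝ)) * glValue c ∧
    ∀ d : V → V → ℝ, (∀ i, d i i = 0) → (∀ i j, d i j = d j i) →
      (∀ i j k, d i k ≤ d i j + d j k) →
      phi c * ∑ i, ∑ j, d i j ≤ 52434 * (H + (Nat.log 2 k : ℝ)) * ∑ i, ∑ j, c i j * d i j := by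
  have halt := robust_alternative hc hsym hA hA2 hH hr
  refine ⟨gap_bound hc hsym hk hH halt, fun d hd0 hs ht => ?_⟩
  refine metric_bound hc hsym hk hH halt (fun x y => ?_) hs ht
  have h1 := ht x y x
  rw [hd0, hs y x] at h1
  linarith

end Vale.Agent.P318.R2.H821
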