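import Vale.Agent.P318.R2.H821.Robust

/-!
# The number of different rows

`SepRows c A r X`: the rows `(c x y)_(y ∉ A)` of any two vertices `x` of `X ⊆ A` differ by more
than `r` in the `ℓ¹` norm. A largest such set `X` for `r = phi c * n / 48` gives `A` the rank
`X.card`, up to a small error.
-/

open Finset

set_option linter.unusedSectionVars false

namespace Vale.Agent.P318.R2.H821

open Vale.Agent.P318.H867 Vale.Agent.P318.H724 Vale.Agent.P318.R2.H344 Vale.Agent.P318.R2.H305

variable {V : Type*} [Fintype V] [DecidableEq V] [Nontrivial V] {c : V → V → ℝ}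

/-- The rows of the vertices of `X` are pairwise at distance more than `r`. -/
def SepRows (c : V → V → ℝ) (A : Finset V) (r : ℝ) (X : Finset V) : Prop :=
  X ⊆ A ∧ ∀ x ∈ X, ∀ z ∈ X, x ≠ z → r < ∑ y ∈ Aᶜ, |c x y - c z y|

/-- Labels from any type with at most `k` elements. -/
lemma exists_fin_labels {ι : Type*} [Fintype ι] {k : ℕ} (hk : Fintype.card ι ≤ k)
    (a b : ι → V → ℝ) (ha : ∀ i x, 0 ≤ a i x) (hb : ∀ i y, 0 ≤ b i y) :
    ∃ a' b' : Fin k → V → ℝ, (∀ i x, 0 ≤ a' i x) ∧ (∀ i y, 0 ≤ b' i y) ∧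
      ∀ x y, ∑ i, a' i x * b' i y = ∑ i, a i x * b i y := by
  classical
  obtain ⟨e⟩ : Nonempty (ι ↪ Fin k) :=
    Function.Embedding.nonempty_of_card_le (by simpa using hk)
  have hext : ∀ g : ι → V → ℝ, (∀ i x, 0 ≤ g i x) →
      ∀ (i : Fin k) (x : V), 0 ≤ Function.extend e g 0 i x := by
    intro g hg i x
    by_cases hi : ∃ z, e z = i
    · obtain ⟨z, rfl⟩ := hi
      rw [e.injective.extend_apply]
      exact hg z x
    · rw [Function.extend_apply' _ _ _ hi]
      exact le_rfl
  refine ⟨Function.extend e a 0, Function.extend e b 0, hext a ha, hext b hb, ?_⟩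
  intro x y
  symm
  refine Fintype.sum_of_injective e e.injective _ _ (fun i hi => ?_) (fun z => ?_)
  · rw [Function.extend_apply' _ _ _ hi, Pi.zero_apply, Pi.zero_apply, zero_mul]
  · rw [e.injective.extend_apply, e.injective.extend_apply]

/-- A largest separated set exists, and every row is close to one of its rows. -/
lemma exists_max_sep (c : V → V → ℝ) (A : Finset V) {r : ℝ} (hr : 0 ≤ r) :
    ∃ X : Finset V, SepRows c A r X ∧ ∀ x ∈ A, ∃ z ∈ X, ∑ y ∈ Aᶜ, |c x y - c z y| ≤ r := by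
  classical
  obtain ⟨X, hX, hmax⟩ := (univ.filter fun X : Finset V => SepRows c A r X).exists_max_image
    card ⟨∅, mem_filter.2 ⟨mem_univ _, empty_subset _, fun x hx => absurd hx (notMem_empty x)⟩⟩
  rw [mem_filter] at hX
  obtain ⟨-, hXA, hX⟩ := hX
  refine ⟨X, ⟨hXA, hX⟩, fun x hx => ?_⟩
  by_contra hcon
  push Not at hcon
  have hxX : x ∉ X := fun h => by
    have h1 := hcon x h
    simp only [sub_self, abs_zero, sum_const_zero] at h1
    linarith
  have h2 : SepRows c A r (insert x X) := by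
    refine ⟨insert_subset hx hXA, fun u hu v hv huv => ?_⟩
    rw [mem_insert] at hu hv
    rcases hu with rfl | hu
    · rcases hv with rfl | hv
      · exact absurd rfl huv
      · exact hcon v hv
    · rcases hv with rfl | hv
      · have h3 := hcon u hu
        simp only [abs_sub_comm (c v _) (c u _)] at h3
        exact h3
      · exact hX u hu v hv huv
  have h3 := hmax _ (mem_filter.2 ⟨mem_univ _, h2⟩)
  rw [card_insert_of_notMem hxX] at h3
  omega

/-- **Few different rows**: the rank up to a small error is at most the number of rows at distance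
more than `phi c * n / 48`. -/
theorem nearRanked_of_sep (hc : ∀ i j, 0 ≤ c i j) {A : Finset V}
    (hA2 : 3 * A.card ≤ 2 * Fintype.card V) {k : ℕ} {X : Finset V}
    (hX : ∀ x ∈ A, ∃ z ∈ X, ∑ y ∈ Aᶜ, |c x y - c z y| ≤ phi c * (Fintype.card V : ℝ) / 48)
    (hk : X.card ≤ k) : NearRanked c k 1 A := by
  classical
  have hex : ∀ x, ∃ z, x ∈ A → z ∈ X ∧
      ∑ y ∈ Aᶜ, |c x y - c z y| ≤ phi c * (Fintype.card V : ℝ) / 48 := by
    intro x
    by_cases hx : x ∈ A
    · obtain ⟨z, hz, h⟩ := hX x hx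
      exact ⟨z, fun _ => ⟨hz, h⟩⟩
    · exact ⟨x, fun h => absurd h hx⟩
  choose g hg using hex
  obtain ⟨a, b, ha, hb, hab⟩ := exists_fin_labels (ι := {z // z ∈ X}) (k := k)
    (by simpa using hk) (fun z x => if g x = z then 1 else 0) (fun z y => c z y)
    (fun z x => by split_ifs <;> norm_num) (fun z y => hc z y)
  have hs : ∀ x ∈ A, ∀ y, ∑ i, a i x * b i y = c (g x) y := by
    intro x hx y
    rw [hab, sum_eq_single (⟨g x, (hg x hx).1⟩ : {z // z ∈ X})]
    · simp only [if_true, one_mul]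
    · intro z _ hz
      have h1 : g x ≠ (z : V) := fun h => hz (Subtype.ext h.symm)
      simp only [if_neg h1, zero_mul]
    · intro h
      exact absurd (mem_univ _) h
  refine ⟨a, b, ha, hb, ?_⟩
  have hphi := phi_nonneg hc
  have h1 : ∑ x ∈ A, ∑ y ∈ Aᶜ, (max 0 (c x y - 1 * ∑ i, a i x * b i y) +
      2 * 1 * max 0 (∑ i, a i x * b i y - c x y)) ≤
      ∑ x ∈ A, 2 * (phi c * (Fintype.card V : ℝ) / 48) := by
    refine sum_le_sum fun x hx => ?_
    refine le_trans ?_ (mul_le_mul_of_nonneg_left (hg x hx).2 (by norm_num : (0 : ℝ) ≤ 2))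
    rw [mul_sum]
    refine sum_le_sum fun y _ => ?_
    rw [hs x hx y]
    rcases le_total (c (g x) y) (c x y) with h | h
    · rw [max_eq_right (by linarith), max_eq_left (by linarith), abs_of_nonneg (by linarith)]
      linarith
    · rw [max_eq_left (by linarith), max_eq_right (by linarith), abs_of_nonpos (by linarith)]
      linarith
  have h2 : ∑ _x ∈ A, 2 * (phi c * (Fintype.card V : ℝ) / 48) =
      (A.card : ℝ) * (2 * (phi c * (Fintype.card V : ℝ) / 48)) := by
    rw [sum_const, nsmul_eq_mul]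
  have h3 : 3 * (A.card : ℝ) ≤ 2 * (Fintype.card V : ℝ) := by exact_mod_cast hA2
  have h4 : 0 ≤ phi c * (Fintype.card V : ℝ) := by positivity
  rw [h2] at h1
  have h5 : (A.card : ℝ) * (2 * (phi c * (Fintype.card V : ℝ) / 48)) ≤
      2 / 3 * (Fintype.card V : ℝ) * (2 * (phi c * (Fintype.card V : ℝ) / 48)) :=
    mul_le_mul_of_nonneg_right (by linarith) (by linarith)
  have h6 : 2 / 3 * (Fintype.card V : ℝ) * (2 * (phi c * (Fintype.card V : ℝ) / 48)) =
      phi c * (Fintype.card V : ℝ) ^ 2 / 36 := by ring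
  refine (mul_le_mul_of_nonneg_left (h1.trans (h5.trans_eq h6)) (by norm_num)).trans ?_
  linarith

/-- **The gap is bounded by the square root of the logarithm of the number of different rows.** -/
theorem main_rows (hc : ∀ i j, 0 ≤ c i j) (hsym : ∀ i j, c i j = c j i) {k : ℕ}
    {A : Finset V} (hA : Fintype.card V ≤ 3 * A.card)
    (hA2 : 3 * A.card ≤ 2 * Fintype.card V)
    (hk : ∀ X, SepRows c A (phi c * (Fintype.card V : ℝ) / 48) X → X.card ≤ k) :
    phi c ≤ 100000000000000 * Real.sqrt (1 + (Nat.log 2 k : ℝ)) * glValue c ∧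
    ∀ d : V → V → ℝ, (∀ i, d i i = 0) → (∀ i j, d i j = d j i) →
      (∀ i j k, d i k ≤ d i j + d j k) →
      phi c * ∑ i, ∑ j, d i j ≤ 52434 * (1 + (Nat.log 2 k : ℝ)) * ∑ i, ∑ j, c i j * d i j := by
  have hphi := phi_nonneg hc
  obtain ⟨X, hX, hXA⟩ := exists_max_sep c A (r := phi c * (Fintype.card V : ℝ) / 48)
    (by positivity)
  have hn : 0 < Fintype.card V := Fintype.card_pos
  have hAne : A.Nonempty := by
    rw [← card_pos]
    omega
  obtain ⟨x, hx⟩ := hAne
  obtain ⟨z, hz, -⟩ := hXA x hx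
  have hXk := hk X hX
  have hk1 : 1 ≤ k := le_trans (card_pos.2 ⟨z, hz⟩) hXk
  have h := main_near hc hsym hk1 (H := 1) le_rfl hA hA2 (nearRanked_of_sep hc hA2 hXA hXk)
  rw [mul_one] at h
  exact h

end Vale.Agent.P318.R2.H821
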