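import Vale.Agent.P318.R2.H821.Robust

/-!
# Spread or structured

A vertex `w` is spread (for auxiliary capacities `e`) if every set which carries three quarters of
the row of `w` has at least `n / k` elements. Let `U` be the set of the vertices which are not
spread. It is enough that the capacities between `A ∩ U` and `U \ A` are, up to the factor `H` and
a small error, a sum of `k` products of nonnegative functions, for one balanced set `A`.
-/

open Finset

set_option linter.unusedSectionVars false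

namespace Vale.Agent.P318.R2.H821

open Vale.Agent.P318.H867 Vale.Agent.P318.H724 Vale.Agent.P318.R2.H344 Vale.Agent.P318.R2.H305

variable {V : Type*} [Fintype V] [DecidableEq V] [Nontrivial V] {c d e : V → V → ℝ}

/-- Every set which carries three quarters of the row of `w` has at least `n / k` elements. -/
def SpreadAt (e : V → V → ℝ) (k : ℕ) (w : V) : Prop :=
  ∀ S : Finset V, 0 < ∑ y, e w y → 3 * ∑ y, e w y ≤ 4 * ∑ y ∈ S, e w y →
    Fintype.card V ≤ k * S.card

/-- The alternative, for semimetrics with zero diagonal. -/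
def Alt0 (c : V → V → ℝ) (k : ℕ) (H : ℝ) : Prop :=
  ∀ d : V → V → ℝ, (∀ x, d x x = 0) → (∀ x y, 0 ≤ d x y) → (∀ x y, d x y = d y x) →
    (∀ x y z, d x z ≤ d x y + d y z) → ∀ τ : ℝ, 0 < τ →
    phi c * (τ * (Fintype.card V : ℝ) ^ 2) ≤ 768 * H * ∑ x, ∑ y, c x y * d x y ∨
      ∃ Gd : Finset V, 15 * (Fintype.card V : ℝ) ≤ 16 * Gd.card ∧
        ∀ x ∈ Gd, Fintype.card V ≤ 32 * k * (ball d x τ).card

/-- A spread vertex with a small ball has an expensive row. -/
lemma bad_vertex (he0 : ∀ x y, 0 ≤ e x y) (hd : ∀ x y, 0 ≤ d x y) {k : ℕ} {w : V}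
    (hw : SpreadAt e k w) {r : ℝ} (hr : 0 ≤ r)
    (hb : ¬ Fintype.card V ≤ 32 * k * (ball d w r).card) :
    r / 4 * ∑ y, e w y ≤ ∑ y, e w y * d w y := by
  have h0 : 0 ≤ ∑ y, e w y := sum_nonneg fun y _ => he0 w y
  have h1 : 4 * ∑ y ∈ ball d w r, e w y ≤ 3 * ∑ y, e w y := by
    rcases h0.eq_or_lt with h | h
    · have h2 : ∑ y ∈ ball d w r, e w y ≤ ∑ y, e w y :=
        sum_le_sum_of_subset_of_nonneg (subset_univ _) fun y _ _ => he0 w y
      linarith
    · by_contra hcon
      rw [not_le] at hcon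
      have h2 := hw _ h hcon.le
      apply hb
      refine h2.trans (Nat.mul_le_mul_right _ ?_)
      omega
  have h2 : ∑ y ∈ ball d w r, e w y + ∑ y ∈ (ball d w r)ᶜ, e w y = ∑ y, e w y :=
    sum_add_sum_compl _ _
  have h3 : r * ∑ y ∈ (ball d w r)ᶜ, e w y ≤ ∑ y, e w y * d w y := by
    calc r * ∑ y ∈ (ball d w r)ᶜ, e w y = ∑ y ∈ (ball d w r)ᶜ, e w y * r := by
          rw [mul_sum]; exact sum_congr rfl fun y _ => mul_comm _ _
      _ ≤ ∑ y ∈ (ball d w r)ᶜ, e w y * d w y := by
          refine sum_le_sum fun y hy => mul_le_mul_of_nonneg_left ?_ (he0 w y)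
          rw [mem_compl, mem_ball, not_le] at hy
          exact hy.le
      _ ≤ ∑ y, e w y * d w y :=
          sum_le_sum_of_subset_of_nonneg (subset_univ _) fun y _ _ =>
            mul_nonneg (he0 w y) (hd w y)
  nlinarith

/-- From a function `F` with small crossing energy. -/
theorem good_of_fun (hc : ∀ i j, 0 ≤ c i j) (hsym : ∀ i j, c i j = c j i)
    (hd : ∀ x y, 0 ≤ d x y) (hs : ∀ x y, d x y = d y x)
    (ht : ∀ x y z, d x z ≤ d x y + d y z) {A : Finset V}
    (hA : Fintype.card V ≤ 3 * A.card) (hA2 : 3 * A.card ≤ 2 * Fintype.card V)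
    {k : ℕ} (hk : 1 ≤ k) {H : ℝ} (hH : 1 ≤ H) {ρ : ℝ} (hρ0 : 0 < ρ) {E : ℝ}
    (hE : 36 * E ≤ phi c * (Fintype.card V : ℝ) ^ 2)
    {τ : ℝ} (hτρ : τ = 8 * ρ) {F : V → ℝ} {p : Fin k → V} (hF0 : ∀ x, 0 ≤ F x)
    (hFd : ∀ x y, F x - F y ≤ d x y)
    (hFp : ∀ x, F x < 2 * ρ → (∃ i, d x (p i) < 2 * ρ) ∨
      Fintype.card V ≤ 32 * k * (ball d x τ).card)
    (hFout : ∑ x ∈ A, ∑ y ∈ Aᶜ, c x y * min (F x) ρ
        ≤ H * ∑ x ∈ A, ∑ y ∈ Aᶜ, c x y * d x y + (E * ρ + H * ∑ x, ∑ y, c x y * d x y)) :
    phi c * (τ * (Fintype.card V : ℝ) ^ 2) ≤ 768 * H * ∑ x, ∑ y, c x y * d x y ∨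
      ∃ Gd : Finset V, 15 * (Fintype.card V : ℝ) ≤ 16 * Gd.card ∧
        ∀ x ∈ Gd, Fintype.card V ≤ 32 * k * (ball d x τ).card := by
  classical
  set Q := ∑ x, ∑ y, c x y * d x y with hQ
  have hQ0 : 0 ≤ Q := sum_nonneg fun x _ => sum_nonneg fun y _ => mul_nonneg (hc x y) (hd x y)
  set n := Fintype.card V with hn
  have hn0 : (0 : ℝ) < n := by
    have : 0 < n := Fintype.card_pos
    exact_mod_cast this
  have hphi := phi_nonneg hc
  have hHQ : Q ≤ H * Q := by nlinarith
  have hFlip : ∀ x y, |F x - F y| ≤ d x y := by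
    intro x y
    have h1 := hFd x y
    have h2 := hFd y x
    rw [hs y x] at h2
    rw [abs_le]
    constructor <;> linarith
  -- the first function
  set h : V → ℝ := fun x => if x ∈ A then min (F x) ρ else 0 with hh
  have hh0 : ∀ x, 0 ≤ h x := by
    intro x
    simp only [hh]
    split_ifs
    · exact le_min (hF0 x) hρ0.le
    · exact le_rfl
  have hen : ∑ x, ∑ y, c x y * |h x - h y| ≤ H * Q + 2 * (E * ρ + H * Q) := by
    refine energy_bound_err hc hsym hd hs (A := A) hH hh0 (fun x hx => if_neg hx) ?_ ?_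
    · intro x hx y hy
      simp only [hh, if_pos hx, if_pos hy]
      exact (min_lip _ _ _).trans (hFlip x y)
    · refine le_trans (le_of_eq ?_) hFout
      refine sum_congr rfl fun x hx => sum_congr rfl fun y _ => ?_
      simp only [hh, if_pos hx]
  have hAr : (n : ℝ) ≤ 3 * A.card := by exact_mod_cast hA
  have hAr2 : 3 * (A.card : ℝ) ≤ 2 * n := by exact_mod_cast hA2
  have hAc : (Aᶜ.card : ℝ) = n - A.card := by
    rw [card_compl, Nat.cast_sub (card_le_univ A)]
  set P := A.filter fun a => ρ ≤ F a with hP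
  by_cases hcase1 : (n : ℝ) / 6 ≤ P.card
  · left
    have e1 : 2 * ((P.card : ℝ) * Aᶜ.card * ρ) ≤ ∑ x, ∑ y, |h x - h y| := by
      refine sum_abs_ge ?_ ?_
      · intro x hx y hy
        rw [hP, mem_filter] at hx
        have hy' := mem_compl.1 hy
        simp only [hh, if_pos hx.1, if_neg hy', sub_zero]
        exact le_min hx.2 le_rfl
      · refine disjoint_left.2 fun x hx hx2 => ?_
        exact (mem_compl.1 hx2) (mem_filter.1 hx).1
    have e2 := coarea hc hsym h
    have e3 : (n : ℝ) / 6 * (n / 3) ≤ (P.card : ℝ) * Aᶜ.card := by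
      refine mul_le_mul hcase1 ?_ (by positivity) (by positivity)
      rw [hAc]; linarith
    have e4 : phi c * (2 * ((n : ℝ) / 6 * (n / 3) * ρ)) ≤ H * Q + 2 * (E * ρ + H * Q) := by
      refine le_trans (mul_le_mul_of_nonneg_left ?_ hphi) (e2.trans hen)
      refine le_trans ?_ e1
      have := mul_le_mul_of_nonneg_right e3 hρ0.le
      linarith
    rw [hτρ]
    have e5 : phi c * (2 * ((n : ℝ) / 6 * (n / 3) * ρ)) = phi c * (8 * ρ * (n : ℝ) ^ 2) / 72 := by
      ring
    have e6 : 36 * E * ρ ≤ phi c * (n : ℝ) ^ 2 * ρ := mul_le_mul_of_nonneg_right hE hρ0.le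
    have e7 : phi c * (n : ℝ) ^ 2 * ρ = phi c * (8 * ρ * (n : ℝ) ^ 2) / 8 := by ring
    rw [e5] at e4
    rw [e7] at e6
    have e8 : 0 ≤ H * Q := le_trans hQ0 hHQ
    have e9 : phi c * (8 * ρ * (n : ℝ) ^ 2) ≤ 432 * (H * Q) := by linarith
    linarith
  · rw [not_le] at hcase1
    -- the second function
    set g : V → ℝ := fun x => max 0 (min (F x - ρ) ρ) with hg
    have hglip : ∀ x y, |g x - g y| ≤ d x y := fun x y =>
      (trunc_lip _ _ _ _).trans (hFlip x y)
    set Lo := univ.filter fun x => F x < ρ with hLo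
    set Hi := univ.filter fun x => 2 * ρ ≤ F x with hHi
    have hLoc : (n : ℝ) / 6 ≤ Lo.card := by
      have e1 : A.card ≤ P.card + Lo.card := by
        rw [← card_filter_add_card_filter_not (s := A) (fun a => ρ ≤ F a), ← hP]
        refine Nat.add_le_add_left (card_le_card ?_) _
        intro x hx
        rw [mem_filter] at hx
        rw [hLo, mem_filter]
        exact ⟨mem_univ _, not_le.1 hx.2⟩
      have e2 : (A.card : ℝ) ≤ P.card + Lo.card := by exact_mod_cast e1
      linarith
    by_cases hcase2 : (n : ℝ) / 32 ≤ Hi.card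
    · left
      have e1 : 2 * ((Hi.card : ℝ) * Lo.card * ρ) ≤ ∑ x, ∑ y, |g x - g y| := by
        refine sum_abs_ge ?_ ?_
        · intro x hx y hy
          rw [hHi, mem_filter] at hx
          rw [hLo, mem_filter] at hy
          have a1 : ρ ≤ g x := le_max_of_le_right (le_min (by linarith [hx.2]) le_rfl)
          have a2 : g y ≤ 0 := max_le le_rfl ((min_le_left _ _).trans (by linarith [hy.2]))
          linarith
        · refine disjoint_left.2 fun x hx hx2 => ?_
          rw [hHi, mem_filter] at hx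
          rw [hLo, mem_filter] at hx2
          linarith [hx.2, hx2.2]
      have e2 := lip_bound (c := c) (d := d) hc hsym hglip
      have e3 : (n : ℝ) / 32 * (n / 6) ≤ (Hi.card : ℝ) * Lo.card :=
        mul_le_mul hcase2 hLoc (by positivity) (by positivity)
      have e4 : phi c * (2 * ((n : ℝ) / 32 * (n / 6) * ρ)) ≤ Q := by
        refine le_trans (mul_le_mul_of_nonneg_left ?_ hphi) e2
        refine le_trans ?_ e1
        have := mul_le_mul_of_nonneg_right e3 hρ0.le
        linarith
      rw [hτρ]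
      have e5 : phi c * (8 * ρ * (n : ℝ) ^ 2) =
          768 * (phi c * (2 * ((n : ℝ) / 32 * (n / 6) * ρ))) := by
        ring
      rw [e5]
      nlinarith
    · right
      rw [not_le] at hcase2
      set Gd := univ.filter fun x => n ≤ 32 * k * (ball d x τ).card with hGd
      refine ⟨Gd, ?_, fun x hx => (mem_filter.1 hx).2⟩
      set W := univ.filter fun x => F x < 2 * ρ ∧ ¬ n ≤ 32 * k * (ball d x τ).card with hW
      have hex2 : ∀ x, ∃ i : Fin k, x ∈ W → d x (p i) < 2 * ρ := by
        intro x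
        by_cases hx : x ∈ W
        · obtain ⟨h1, h2⟩ := (mem_filter.1 hx).2
          rcases hFp x h1 with ⟨i, hi⟩ | hi
          · exact ⟨i, fun _ => hi⟩
          · exact absurd hi h2
        · exact ⟨⟨0, hk⟩, fun h => absurd h hx⟩
      choose π hπ using hex2
      have e1 := small_classes W π (n := n)
      have e2 : W.filter (fun x => 32 * k * (W.filter fun y => π y = π x).card < n) = W := by
        refine filter_true_of_mem fun x hx => ?_
        by_contra hcon
        rw [not_lt] at hcon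
        apply (mem_filter.1 hx).2.2
        refine hcon.trans (Nat.mul_le_mul_left _ (card_le_card ?_))
        intro y hy
        rw [mem_filter] at hy
        rw [mem_ball, hτρ]
        have a1 := hπ x hx
        have a2 := hπ y hy.1
        rw [hy.2] at a2
        have a3 := ht x (p (π x)) y
        rw [hs (p (π x)) y] at a3
        linarith
      rw [e2] at e1
      have e3 : 32 * W.card ≤ n := by
        refine Nat.le_of_mul_le_mul_left ?_ (lt_of_lt_of_le Nat.zero_lt_one hk)
        calc k * (32 * W.card) = 32 * k * W.card := by ring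
          _ ≤ k * n := e1
      have e4 : n ≤ Gd.card + (Hi.card + W.card) := by
        have e5 : (univ : Finset V) ⊆ Gd ∪ (Hi ∪ W) := by
          intro x _
          rw [mem_union, mem_union, hGd, hHi, hW, mem_filter, mem_filter, mem_filter]
          by_cases h1 : n ≤ 32 * k * (ball d x τ).card
          · exact Or.inl ⟨mem_univ _, h1⟩
          · rcases le_or_gt (2 * ρ) (F x) with h2 | h2
            · exact Or.inr (Or.inl ⟨mem_univ _, h2⟩)
            · exact Or.inr (Or.inr ⟨mem_univ _, h2, h1⟩)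
        calc n = (univ : Finset V).card := card_univ.symm
          _ ≤ (Gd ∪ (Hi ∪ W)).card := card_le_card e5
          _ ≤ Gd.card + (Hi ∪ W).card := card_union_le _ _
          _ ≤ Gd.card + (Hi.card + W.card) := Nat.add_le_add_left (card_union_le _ _) _
      have e4' : (n : ℝ) ≤ Gd.card + (Hi.card + W.card) := by exact_mod_cast e4
      have e3' : 32 * (W.card : ℝ) ≤ n := by exact_mod_cast e3
      linarith

/-- `e` has at least the row sums of `c`, and costs at most `H` times as much as `c`. -/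
def Carries (c e : V → V → ℝ) (H : ℝ) : Prop :=
  (∀ x y, 0 ≤ e x y) ∧ (∀ x, ∑ y, c x y ≤ ∑ y, e x y) ∧
    ∀ d : V → V → ℝ, (∀ x, d x x = 0) → (∀ x y, 0 ≤ d x y) → (∀ x y, d x y = d y x) →
      (∀ x y z, d x z ≤ d x y + d y z) →
      ∑ x, ∑ y, e x y * d x y ≤ H * ∑ x, ∑ y, c x y * d x y

lemma carries_self (hc : ∀ i j, 0 ≤ c i j) {H : ℝ} (hH : 1 ≤ H) : Carries c c H := by
  refine ⟨hc, fun _ => le_rfl, fun d _ hd _ _ => ?_⟩
  have hQ0 : 0 ≤ ∑ x, ∑ y, c x y * d x y :=
    sum_nonneg fun x _ => sum_nonneg fun y _ => mul_nonneg (hc x y) (hd x y)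
  nlinarith

open Classical in
/-- The capacities between the vertices of `A` which are not spread and the vertices outside `A`
which are not spread are, up to the factor `H` and up to a total error of `phi c * n ^ 2 / 36`,
a sum of `k` products of nonnegative functions. -/
def Structured (c e : V → V → ℝ) (k : ℕ) (H : ℝ) (A : Finset V) : Prop :=
  ∃ a b : Fin k → V → ℝ, (∀ i x, 0 ≤ a i x) ∧ (∀ i y, 0 ≤ b i y) ∧
    36 * ∑ x ∈ A.filter (fun x => ¬ SpreadAt e k x), ∑ y ∈ Aᶜ.filter (fun y => ¬ SpreadAt e k y),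
      (max 0 (c x y - H * ∑ i, a i x * b i y) + 2 * H * max 0 (∑ i, a i x * b i y - c x y)) ≤
        phi c * (Fintype.card V : ℝ) ^ 2

/-- **Spread or structured: the alternative.** -/
theorem spread_alternative (hc : ∀ i j, 0 ≤ c i j) (hsym : ∀ i j, c i j = c j i) {A : Finset V}
    (hA : Fintype.card V ≤ 3 * A.card) (hA2 : 3 * A.card ≤ 2 * Fintype.card V)
    {k : ℕ} (hk : 1 ≤ k) {H : ℝ} (hH : 1 ≤ H) (he : Carries c e H)
    (hr : Structured c e k H A) : Alt0 c k H := by
  classical
  obtain ⟨he0, hrow, hed⟩ := he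
  obtain ⟨a, b, ha, hb, herr⟩ := hr
  intro d hd0 hd hs ht τ hτ
  set Q := ∑ x, ∑ y, c x y * d x y with hQ
  have hρ : 0 < τ / 8 := by positivity
  set ρ : ℝ := τ / 8 with hρdef
  have hτρ : τ = 8 * ρ := by rw [hρdef]; ring
  have hH0 : 0 ≤ H := by linarith
  set n := Fintype.card V with hn
  -- the products, restricted to the vertices which are not spread
  set a' : Fin k → V → ℝ := fun i x => if SpreadAt e k x then 0 else a i x with ha'
  set b' : Fin k → V → ℝ := fun i y => if SpreadAt e k y then 0 else b i y with hb'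
  have ha0 : ∀ i x, 0 ≤ a' i x := fun i x => by
    simp only [ha']
    split_ifs
    · exact le_rfl
    · exact ha i x
  have hb0 : ∀ i y, 0 ≤ b' i y := fun i y => by
    simp only [hb']
    split_ifs
    · exact le_rfl
    · exact hb i y
  set s : V → V → ℝ := fun x y => ∑ i, a' i x * b' i y with hsdef
  have hs0 : ∀ x y, 0 ≤ s x y := fun x y => sum_nonneg fun i _ => mul_nonneg (ha0 i x) (hb0 i y)
  have hsU : ∀ x y, ¬ SpreadAt e k x → ¬ SpreadAt e k y → s x y = ∑ i, a i x * b i y := by
    intro x y hx hy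
    simp only [hsdef, ha', hb', if_neg hx, if_neg hy]
  have hsW : ∀ x y, SpreadAt e k x ∨ SpreadAt e k y → s x y = 0 := by
    intro x y hxy
    simp only [hsdef]
    refine sum_eq_zero fun i _ => ?_
    rcases hxy with h | h
    · simp only [ha', if_pos h, zero_mul]
    · simp only [hb', if_pos h, mul_zero]
  -- the truncated semimetric
  set t : V → V → ℝ := fun x y => min (d x y) (2 * ρ) with htdef
  have ht0 : ∀ x y, 0 ≤ t x y := fun x y => le_min (hd x y) (by positivity)
  have hts : ∀ x y, t x y = t y x := fun x y => by simp only [htdef, hs x y]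
  have htt : ∀ x y z, t x z ≤ t x y + t y z := by
    intro x y z
    simp only [htdef]
    rcases le_total (d x y) (2 * ρ) with h1 | h1
    · rcases le_total (d y z) (2 * ρ) with h2 | h2
      · rw [min_eq_left h1, min_eq_left h2]
        exact (min_le_left _ _).trans (ht x y z)
      · rw [min_eq_right h2]
        have h3 : 0 ≤ min (d x y) (2 * ρ) := le_min (hd x y) (by positivity)
        linarith [min_le_right (d x z) (2 * ρ)]
    · rw [min_eq_right h1]
      have h3 : 0 ≤ min (d y z) (2 * ρ) := le_min (hd y z) (by positivity)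
      linarith [min_le_right (d x z) (2 * ρ)]
  have htd : ∀ x y, t x y ≤ d x y := fun x y => min_le_left _ _
  have ht2 : ∀ x y, t x y ≤ 2 * ρ := fun x y => min_le_right _ _
  have hrank : Ranked s k 1 A := ⟨a', b', ha0, hb0, fun x _ y _ => ⟨le_rfl, by rw [one_mul]⟩⟩
  obtain ⟨F₁, p, hF10, hF1t, hF1p, hF1s⟩ := centres ht0 hts htt le_rfl hrank hρ
  rw [one_mul] at hF1s
  -- the spread vertices with a large ball, and those with a small one
  set W' := univ.filter fun w => SpreadAt e k w ∧ n ≤ 32 * k * (ball d w (4 * ρ)).card with hW'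
  set W'' := univ.filter fun w => SpreadAt e k w ∧ ¬ n ≤ 32 * k * (ball d w (4 * ρ)).card
    with hW''
  set F₂ : V → ℝ := fun x => W'.fold min (2 * ρ) fun w => d x w with hF2
  have hF2le : ∀ x, ∀ w ∈ W', F₂ x ≤ d x w := fun x w hw =>
    (Finset.fold_min_le _).2 (Or.inr ⟨w, hw, le_rfl⟩)
  have hF22 : ∀ x, F₂ x ≤ 2 * ρ := fun x => (Finset.fold_min_le _).2 (Or.inl le_rfl)
  have hF20 : ∀ x, 0 ≤ F₂ x := fun x =>
    (Finset.le_fold_min _).2 ⟨by positivity, fun i _ => hd _ _⟩
  have hF2d : ∀ x y, F₂ x - F₂ y ≤ d x y := by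
    intro x y
    have h : F₂ x - d x y ≤ F₂ y := by
      refine (Finset.le_fold_min _).2 ⟨by linarith [hF22 x, hd x y], fun w hw => ?_⟩
      linarith [hF2le x w hw, ht x y w]
    linarith
  set F : V → ℝ := fun x => min (F₁ x) (F₂ x) with hF
  have hFF1 : ∀ x, F x ≤ F₁ x := fun x => min_le_left _ _
  have hFF2 : ∀ x, F x ≤ F₂ x := fun x => min_le_right _ _
  have hF0 : ∀ x, 0 ≤ F x := fun x => le_min (hF10 x) (hF20 x)
  have hFd : ∀ x y, F x - F y ≤ d x y := by
    intro x y
    have h1 := (hF1t x y).trans (htd x y)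
    have h2 := hF2d x y
    have h3 : F x - d x y ≤ F y := by
      refine le_min ?_ ?_
      · linarith [hFF1 x]
      · linarith [hFF2 x]
    linarith
  -- the capacity at the bad spread vertices
  have hbad : ρ * ∑ w ∈ W'', ∑ y, c w y ≤ H * Q := by
    have h1 : ρ * ∑ w ∈ W'', ∑ y, c w y ≤ ∑ w ∈ W'', ∑ y, e w y * d w y := by
      rw [mul_sum]
      refine sum_le_sum fun w hw => ?_
      obtain ⟨hw1, hw2⟩ := (mem_filter.1 hw).2
      have h2 := bad_vertex he0 hd hw1 (r := 4 * ρ) (by positivity) hw2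
      have h3 := mul_le_mul_of_nonneg_left (hrow w) hρ.le
      linarith
    refine h1.trans (le_trans ?_ (hed d hd0 hd hs ht))
    exact sum_le_sum_of_subset_of_nonneg (subset_univ _) fun x _ _ =>
      sum_nonneg fun y _ => mul_nonneg (he0 x y) (hd x y)
  have hcompl : ∀ x, SpreadAt e k x → x ∉ W' → x ∈ W'' := by
    intro x hx hx'
    rw [hW'', mem_filter]
    refine ⟨mem_univ _, hx, fun h => hx' ?_⟩
    rw [hW', mem_filter]
    exact ⟨mem_univ _, hx, h⟩
  set E : ℝ := ∑ x ∈ A.filter (fun x => ¬ SpreadAt e k x),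
    ∑ y ∈ Aᶜ.filter (fun y => ¬ SpreadAt e k y),
      (max 0 (c x y - H * ∑ i, a i x * b i y) + 2 * H * max 0 (∑ i, a i x * b i y - c x y))
    with hEdef
  -- the error as a sum over all crossing pairs
  set g : V → V → ℝ := fun x y => if SpreadAt e k x ∨ SpreadAt e k y then 0 else
    (max 0 (c x y - H * s x y) + 2 * H * max 0 (s x y - c x y)) with hg
  have hEg : ∑ x ∈ A, ∑ y ∈ Aᶜ, g x y = E := by
    rw [hEdef, sum_filter]
    refine sum_congr rfl fun x _ => ?_
    by_cases hx : SpreadAt e k x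
    · rw [if_neg (not_not.2 hx)]
      exact sum_eq_zero fun y _ => by simp only [hg, hx, true_or, if_true]
    · rw [if_pos hx, sum_filter]
      refine sum_congr rfl fun y _ => ?_
      by_cases hy : SpreadAt e k y
      · rw [if_neg (not_not.2 hy)]
        simp only [hg, hy, or_true, if_true]
      · rw [if_pos hy]
        simp only [hg, hx, hy, or_self, if_false, hsU x y hx hy]
  have hpt : ∀ x ∈ A, ∀ y ∈ Aᶜ, c x y * min (F x) ρ ≤
      H * (s x y * min (F₁ x) ρ - s x y * t x y) + H * (c x y * d x y) + ρ * g x y +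
        (if x ∈ W'' then ρ * c x y else 0) + (if y ∈ W'' then ρ * c x y else 0) := by
    intro x _ y _
    have hcd : 0 ≤ c x y * d x y := mul_nonneg (hc x y) (hd x y)
    have hHcd : c x y * d x y ≤ H * (c x y * d x y) := by nlinarith
    have hm0 : 0 ≤ min (F x) ρ := le_min (hF0 x) hρ.le
    have hif1 : 0 ≤ (if x ∈ W'' then ρ * c x y else 0) := by
      split_ifs
      · exact mul_nonneg hρ.le (hc x y)
      · exact le_rfl
    have hif2 : 0 ≤ (if y ∈ W'' then ρ * c x y else 0) := by
      split_ifs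
      · exact mul_nonneg hρ.le (hc x y)
      · exact le_rfl
    have hcρ : c x y * min (F x) ρ ≤ ρ * c x y := by
      rw [mul_comm ρ]
      exact mul_le_mul_of_nonneg_left (min_le_right _ _) (hc x y)
    by_cases hxy : SpreadAt e k x ∨ SpreadAt e k y
    · have hs1 := hsW x y hxy
      have hg1 : g x y = 0 := by simp only [hg, if_pos hxy]
      rw [hs1, hg1]
      by_cases hx : x ∈ W''
      · rw [if_pos hx]
        linarith
      · by_cases hy : y ∈ W''
        · rw [if_pos hy]
          linarith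
        · have hlast : c x y * min (F x) ρ ≤ c x y * d x y := by
            refine mul_le_mul_of_nonneg_left ?_ (hc x y)
            rcases hxy with h | h
            · have hx' : x ∈ W' := by
                by_contra h2
                exact hx (hcompl x h h2)
              have h3 := hF2le x x hx'
              rw [hd0] at h3
              exact (min_le_left _ _).trans ((hFF2 x).trans (h3.trans (hd x y)))
            · have hy' : y ∈ W' := by
                by_contra h2
                exact hy (hcompl y h h2)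
              exact (min_le_left _ _).trans ((hFF2 x).trans (hF2le x y hy'))
          linarith
    · have hg1 : g x y = max 0 (c x y - H * s x y) + 2 * H * max 0 (s x y - c x y) := by
        simp only [hg, if_neg hxy]
      rw [hg1]
      set u : ℝ := max 0 (c x y - H * s x y) with hu
      set v : ℝ := max 0 (s x y - c x y) with hv
      have hu0 : 0 ≤ u := le_max_left _ _
      have hv0 : 0 ≤ v := le_max_left _ _
      have hu1 : c x y - H * s x y ≤ u := le_max_right _ _
      have hv1 : s x y - c x y ≤ v := le_max_right _ _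
      have hm1 : min (F x) ρ ≤ min (F₁ x) ρ := min_le_min_right _ (hFF1 x)
      have hmρ : min (F₁ x) ρ ≤ ρ := min_le_right _ _
      have hm10 : 0 ≤ min (F₁ x) ρ := le_min (hF10 x) hρ.le
      have k1 : c x y * min (F x) ρ ≤ c x y * min (F₁ x) ρ :=
        mul_le_mul_of_nonneg_left hm1 (hc x y)
      have k2 : c x y * min (F₁ x) ρ ≤ (H * s x y + u) * min (F₁ x) ρ :=
        mul_le_mul_of_nonneg_right (by linarith) hm10
      have k3 : u * min (F₁ x) ρ ≤ u * ρ := mul_le_mul_of_nonneg_left hmρ hu0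
      have k4 : s x y * t x y ≤ (c x y + v) * t x y :=
        mul_le_mul_of_nonneg_right (by linarith) (ht0 x y)
      have k5 : c x y * t x y ≤ c x y * d x y := mul_le_mul_of_nonneg_left (htd x y) (hc x y)
      have k6 : v * t x y ≤ v * (2 * ρ) := mul_le_mul_of_nonneg_left (ht2 x y) hv0
      have k7 : s x y * t x y ≤ c x y * d x y + v * (2 * ρ) := by linarith
      have k8 := mul_le_mul_of_nonneg_left k7 hH0
      linarith
  have hcross : ∑ x ∈ A, ∑ y ∈ Aᶜ, c x y * min (F x) ρ ≤
      H * ∑ x ∈ A, ∑ y ∈ Aᶜ, c x y * d x y + (E * ρ + H * Q) := by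
    have h1 := sum_le_sum fun x hx => sum_le_sum fun y hy => hpt x hx y hy
    have h2 : ∑ x ∈ A, ∑ y ∈ Aᶜ, (if x ∈ W'' then ρ * c x y else 0) ≤
        ρ * ∑ w ∈ A.filter (· ∈ W''), ∑ y, c w y := by
      rw [mul_sum, sum_filter]
      refine sum_le_sum fun x _ => ?_
      by_cases hx : x ∈ W''
      · simp only [if_pos hx]
        rw [← mul_sum]
        exact mul_le_mul_of_nonneg_left (sum_le_sum_of_subset_of_nonneg (subset_univ _)
          fun y _ _ => hc x y) hρ.le
      · simp only [if_neg hx, sum_const_zero, le_refl]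
    have h3 : ∑ x ∈ A, ∑ y ∈ Aᶜ, (if y ∈ W'' then ρ * c x y else 0) ≤
        ρ * ∑ w ∈ Aᶜ.filter (· ∈ W''), ∑ y, c w y := by
      rw [sum_comm, mul_sum, sum_filter]
      refine sum_le_sum fun y _ => ?_
      by_cases hy : y ∈ W''
      · simp only [if_pos hy]
        rw [← mul_sum]
        refine mul_le_mul_of_nonneg_left ?_ hρ.le
        calc ∑ x ∈ A, c x y = ∑ x ∈ A, c y x := sum_congr rfl fun x _ => hsym x y
          _ ≤ ∑ x, c y x := sum_le_sum_of_subset_of_nonneg (subset_univ _) fun x _ _ => hc y x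
      · simp only [if_neg hy, sum_const_zero, le_refl]
    have h4 : ∑ w ∈ A.filter (· ∈ W''), ∑ y, c w y + ∑ w ∈ Aᶜ.filter (· ∈ W''), ∑ y, c w y =
        ∑ w ∈ W'', ∑ y, c w y := by
      rw [← sum_union (disjoint_filter_filter disjoint_compl_right), ← filter_union,
        union_compl, filter_mem_eq_inter, univ_inter]
    have h5 : ∑ x ∈ A, ∑ y ∈ Aᶜ, (H * (s x y * min (F₁ x) ρ - s x y * t x y) +
        H * (c x y * d x y) + ρ * g x y + (if x ∈ W'' then ρ * c x y else 0) +
        (if y ∈ W'' then ρ * c x y else 0)) =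
        H * (∑ x ∈ A, ∑ y ∈ Aᶜ, s x y * min (F₁ x) ρ - ∑ x ∈ A, ∑ y ∈ Aᶜ, s x y * t x y) +
        H * ∑ x ∈ A, ∑ y ∈ Aᶜ, c x y * d x y + ρ * ∑ x ∈ A, ∑ y ∈ Aᶜ, g x y +
        ∑ x ∈ A, ∑ y ∈ Aᶜ, (if x ∈ W'' then ρ * c x y else 0) +
        ∑ x ∈ A, ∑ y ∈ Aᶜ, (if y ∈ W'' then ρ * c x y else 0) := by
      simp only [sum_add_distrib, ← mul_sum, sum_sub_distrib]
    rw [h5, hEg] at h1
    have h6 : H * (∑ x ∈ A, ∑ y ∈ Aᶜ, s x y * min (F₁ x) ρ - ∑ x ∈ A, ∑ y ∈ Aᶜ, s x y * t x y)
        ≤ 0 := mul_nonpos_of_nonneg_of_nonpos hH0 (by linarith)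
    have h7 : ρ * ∑ w ∈ A.filter (· ∈ W''), ∑ y, c w y +
        ρ * ∑ w ∈ Aᶜ.filter (· ∈ W''), ∑ y, c w y ≤ H * Q := by
      rw [← mul_add, h4]
      exact hbad
    linarith
  refine good_of_fun hc hsym hd hs ht hA hA2 hk hH hρ herr hτρ hF0 hFd (p := p)
    (fun x hx => ?_) hcross
  rcases min_lt_iff.1 hx with h | h
  · left
    obtain ⟨i, hi⟩ := hF1p x h
    refine ⟨i, ?_⟩
    rcases min_lt_iff.1 hi with h | h
    · exact h
    · exact absurd h (lt_irrefl _)
  · right
    rcases (Finset.fold_min_lt _).1 h with h | ⟨w, hw, hwx⟩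
    · exact absurd h (lt_irrefl _)
    · obtain ⟨-, hw2⟩ := (mem_filter.1 hw).2
      refine hw2.trans (Nat.mul_le_mul_left _ (card_le_card fun y hy => ?_))
      rw [mem_ball] at hy ⊢
      have h1 := ht x w y
      linarith

end Vale.Agent.P318.R2.H821
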