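import Vale.Agent.P318.R2.H821.SpreadMain
import Vale.Agent.P318.R2.H821.Forms
import Vale.Agent.P318.R2.H821.Cover

/-!
# Spread or structured: the capacities between the vertices which are not spread

`rest c e k` are the capacities between the vertices which are not spread. The conditions on the
set `A` of the file `Forms` (few types of rows, small cut rank, few vertices which meet all
crossing pairs) are only needed for these capacities.
-/

open Finset

set_option linter.unusedSectionVars false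

namespace Vale.Agent.P318.R2.H821

open Vale.Agent.P318.H867 Vale.Agent.P318.H724 Vale.Agent.P318.R2.H344 Vale.Agent.P318.R2.H305

variable {V : Type*} [Fintype V] [DecidableEq V] [Nontrivial V] {c e : V → V → ℝ}

open Classical in
/-- The capacities between the vertices which are not spread. -/
noncomputable def rest (c e : V → V → ℝ) (k : ℕ) : V → V → ℝ :=
  fun x y => if SpreadAt e k x ∨ SpreadAt e k y then 0 else c x y

lemma rest_nonneg (hc : ∀ i j, 0 ≤ c i j) (k : ℕ) : ∀ i j, 0 ≤ rest c e k i j := by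
  intro i j
  unfold rest
  split_ifs
  · exact le_rfl
  · exact hc i j

lemma rest_01 (h01 : ∀ i j, c i j = 0 ∨ c i j = 1) (k : ℕ) :
    ∀ i j, rest c e k i j = 0 ∨ rest c e k i j = 1 := by
  intro i j
  unfold rest
  split_ifs
  · exact Or.inl rfl
  · exact h01 i j

/-- Structure of the rest is enough. -/
lemma structured_of_rest (hc : ∀ i j, 0 ≤ c i j) {k : ℕ} {H : ℝ} {A : Finset V}
    (h : Ranked (rest c e k) k H A) : Structured c e k H A := by
  classical
  obtain ⟨a, b, ha, hb, hab⟩ := h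
  refine ⟨a, b, ha, hb, ?_⟩
  have h0 : ∑ x ∈ A.filter (fun x => ¬ SpreadAt e k x),
      ∑ y ∈ Aᶜ.filter (fun y => ¬ SpreadAt e k y),
      (max 0 (c x y - H * ∑ i, a i x * b i y) +
        2 * H * max 0 (∑ i, a i x * b i y - c x y)) = 0 := by
    refine sum_eq_zero fun x hx => sum_eq_zero fun y hy => ?_
    obtain ⟨hx1, hx2⟩ := mem_filter.1 hx
    obtain ⟨hy1, hy2⟩ := mem_filter.1 hy
    obtain ⟨h1, h2⟩ := hab x hx1 y (mem_compl.1 hy1)
    have h3 : rest c e k x y = c x y := by
      unfold rest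
      rw [if_neg (by tauto)]
    rw [h3] at h1 h2
    rw [max_eq_left (by linarith), max_eq_left (by linarith), mul_zero, add_zero]
  rw [h0, mul_zero]
  exact mul_nonneg (phi_nonneg hc) (sq_nonneg _)

/-- **Spread or ranked, typed.** -/
theorem main_rest (hc : ∀ i j, 0 ≤ c i j) (hsym : ∀ i j, c i j = c j i) {k : ℕ}
    (hk : 1 ≤ k) {H : ℝ} (hH : 1 ≤ H) (he : Carries c e H)
    (h : Cuttable V (Ranked (rest c e k) k H) ∨ Cuttable V (Typed (rest c e k) k H)) :
    phi c ≤ 100000000000000 * H * Real.sqrt (1 + (Nat.log 2 k : ℝ)) * glValue c ∧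
    ∀ d : V → V → ℝ, (∀ i, d i i = 0) → (∀ i j, d i j = d j i) →
      (∀ i j k, d i k ≤ d i j + d j k) →
      phi c * ∑ i, ∑ j, d i j ≤ 52434 * (H + (Nat.log 2 k : ℝ)) * ∑ i, ∑ j, c i j * d i j := by
  rcases h with h | h
  · exact main_spread hc hsym hk hH he (h.mono fun A hA => structured_of_rest hc hA)
  · exact main_spread hc hsym hk hH he (h.mono fun A hA => structured_of_rest hc
      (ranked_of_typed (rest_nonneg hc k) hA))

lemma ranked_mono_factor {k : ℕ} {H : ℝ} (hH : 1 ≤ H) {A : Finset V}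
    (h : Ranked c k 1 A) : Ranked c k H A := by
  obtain ⟨a, b, ha, hb, hab⟩ := h
  refine ⟨a, b, ha, hb, fun x hx y hy => ⟨(hab x hx y hy).1, (hab x hx y hy).2.trans ?_⟩⟩
  have h0 : 0 ≤ ∑ i, a i x * b i y := sum_nonneg fun i _ => mul_nonneg (ha i x) (hb i y)
  nlinarith

/-- **Spread or covered**: all crossing pairs of positive capacity contain a spread vertex or one
of `k` vertices. -/
theorem main_cover (hc : ∀ i j, 0 ≤ c i j) (hsym : ∀ i j, c i j = c j i) {k : ℕ}
    (hk : 1 ≤ k) {H : ℝ} (hH : 1 ≤ H) (he : Carries c e H)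
    (h : Cuttable V fun A => ∃ X : Finset V, X.card ≤ k ∧ ∀ x ∈ A, x ∉ X → ∀ y ∉ A, y ∉ X →
      rest c e k x y = 0) :
    phi c ≤ 100000000000000 * H * Real.sqrt (1 + (Nat.log 2 k : ℝ)) * glValue c ∧
    ∀ d : V → V → ℝ, (∀ i, d i i = 0) → (∀ i j, d i j = d j i) →
      (∀ i j k, d i k ≤ d i j + d j k) →
      phi c * ∑ i, ∑ j, d i j ≤ 52434 * (H + (Nat.log 2 k : ℝ)) * ∑ i, ∑ j, c i j * d i j :=
  main_spread hc hsym hk hH he (h.mono fun A hA => by
    obtain ⟨X, hX, h0⟩ := hA
    exact structured_of_rest hc (ranked_mono_factor hH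
      (ranked_of_cover (rest_nonneg hc k) hX h0)))

/-- **Spread or small cut rank.** -/
theorem main_cutRank (h01 : ∀ i j, c i j = 0 ∨ c i j = 1) (hsym : ∀ i j, c i j = c j i) {r : ℕ}
    {H : ℝ} (hH : 1 ≤ H) (he : Carries c e H)
    (h : Cuttable V fun A => cutRank (rest c e (2 ^ r)) A ≤ r) :
    phi c ≤ 100000000000000 * H * Real.sqrt (1 + (r : ℝ)) * glValue c ∧
    ∀ d : V → V → ℝ, (∀ i, d i i = 0) → (∀ i j, d i j = d j i) →
      (∀ i j k, d i k ≤ d i j + d j k) →
      phi c * ∑ i, ∑ j, d i j ≤ 52434 * (H + (r : ℝ)) * ∑ i, ∑ j, c i j * d i j := by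
  have hc : ∀ i j, 0 ≤ c i j := by
    intro i j
    rcases h01 i j with h | h <;> rw [h]
    norm_num
  have h1 := main_spread hc hsym (k := 2 ^ r) Nat.one_le_two_pow hH he
    (h.mono fun A hA => structured_of_rest hc (ranked_mono_factor hH
      (ranked_of_typed (rest_nonneg hc _) (typed_of_cutRank (rest_01 h01 _) hA))))
  rw [Nat.log_pow (by norm_num)] at h1
  exact h1

/-- **A third of the vertices spread.** -/
theorem main_third (hc : ∀ i j, 0 ≤ c i j) (hsym : ∀ i j, c i j = c j i) {k : ℕ}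
    (hk : 1 ≤ k) {H : ℝ} (hH : 1 ≤ H) (he : Carries c e H) {X : Finset V}
    (hX : Fintype.card V ≤ 3 * X.card) (hsp : ∀ x ∈ X, SpreadAt e k x) :
    phi c ≤ 100000000000000 * H * Real.sqrt (1 + (Nat.log 2 k : ℝ)) * glValue c ∧
    ∀ d : V → V → ℝ, (∀ i, d i i = 0) → (∀ i j, d i j = d j i) →
      (∀ i j k, d i k ≤ d i j + d j k) →
      phi c * ∑ i, ∑ j, d i j ≤ 52434 * (H + (Nat.log 2 k : ℝ)) * ∑ i, ∑ j, c i j * d i j :=
  main_spread hc hsym hk hH he (cuttable_of_third hc hX hsp)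

end Vale.Agent.P318.R2.H821
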