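import Vale.Agent.P318.R2.H821.SpreadCut

/-!
# Spread or structured: the bounds for the gap
-/

open Finset

set_option linter.unusedSectionVars false

namespace Vale.Agent.P318.R2.H821

open Vale.Agent.P318.H867 Vale.Agent.P318.H724 Vale.Agent.P318.R2.H344 Vale.Agent.P318.R2.H305

variable {V : Type*} [Fintype V] [DecidableEq V] [Nontrivial V] {c d e : V → V → ℝ}

theorem metric_bound0 (hc : ∀ i j, 0 ≤ c i j) (hsym : ∀ i j, c i j = c j i) {k : ℕ}
    (hk : 1 ≤ k) {H : ℝ} (hH : 1 ≤ H) (halt : Alt0 c k H)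
    (hd0 : ∀ x, d x x = 0) (hd : ∀ x y, 0 ≤ d x y) (hs : ∀ x y, d x y = d y x)
    (ht : ∀ x y z, d x z ≤ d x y + d y z) :
    phi c * ∑ x, ∑ y, d x y ≤ 52434 * (H + (Nat.log 2 k : ℝ)) * ∑ x, ∑ y, c x y * d x y := by
  have hQ0 : 0 ≤ ∑ x, ∑ y, c x y * d x y :=
    sum_nonneg fun x _ => sum_nonneg fun y _ => mul_nonneg (hc x y) (hd x y)
  have hN1 : 1 ≤ Fintype.card V := Fintype.card_pos
  have hn0 : (0 : ℝ) < Fintype.card V := by exact_mod_cast hN1
  have hlog : (0 : ℝ) ≤ (Nat.log 2 k : ℝ) := Nat.cast_nonneg _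
  have hS0 : 0 ≤ ∑ x, ∑ y, d x y := sum_nonneg fun x _ => sum_nonneg fun y _ => hd x y
  rcases hS0.eq_or_lt with hS00 | hSpos
  · rw [← hS00, mul_zero]; positivity
  obtain ⟨δ, hδ0, hSδ⟩ : ∃ δ : ℝ, 0 < δ ∧
      ∑ x, ∑ y, d x y = δ * (Fintype.card V : ℝ) ^ 2 :=
    ⟨(∑ x, ∑ y, d x y) / (Fintype.card V : ℝ) ^ 2, by positivity, by field_simp⟩
  rcases halt d hd0 hd hs ht (δ / 64) (by positivity) with h | ⟨Gd, hGc, hG⟩
  · have h1 : phi c * (δ / 64 * (Fintype.card V : ℝ) ^ 2) =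
        phi c * (δ * (Fintype.card V : ℝ) ^ 2) / 64 := by ring
    rw [h1, ← hSδ] at h
    have h2 : phi c * ∑ x, ∑ y, d x y ≤ 49152 * H * ∑ x, ∑ y, c x y * d x y := by linarith
    refine h2.trans (mul_le_mul_of_nonneg_right ?_ hQ0)
    linarith
  · obtain ⟨hm1, hm2, hm3⟩ := num_facts hN1 hk
    have h1 := metric_core hc hsym hd hs ht hm1 hδ0 hSδ Gd hGc
      (fun x hx => hm2 _ (hG x hx))
    refine h1.trans (mul_le_mul_of_nonneg_right ?_ hQ0)
    have h2 : (Nat.log 2 (Fintype.card V / ((Fintype.card V - 1) / (32 * k) + 1)) : ℝ) ≤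
        5 + (Nat.log 2 k : ℝ) := by exact_mod_cast hm3
    linarith

theorem neg_bound0 (hc : ∀ i j, 0 ≤ c i j) (hsym : ∀ i j, c i j = c j i) {k : ℕ}
    (hk : 1 ≤ k) {H : ℝ} (hH : 1 ≤ H) (halt : Alt0 c k H)
    (hneg : IsNegTypeSemimetric d) :
    phi c * ∑ x, ∑ y, d x y ≤
      100000000000000 * H * Real.sqrt (1 + (Nat.log 2 k : ℝ)) * ∑ x, ∑ y, c x y * d x y := by
  obtain ⟨⟨X, hX⟩, ht⟩ := id hneg
  have hd : ∀ x y, 0 ≤ d x y := fun x y => by rw [hX]; positivity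
  have hd0 : ∀ x, d x x = 0 := fun x => by rw [hX]; simp
  have hs : ∀ x y, d x y = d y x := fun x y => by rw [hX, hX, norm_sub_rev]
  have hQ0 : 0 ≤ ∑ x, ∑ y, c x y * d x y :=
    sum_nonneg fun x _ => sum_nonneg fun y _ => mul_nonneg (hc x y) (hd x y)
  have hN1 : 1 ≤ Fintype.card V := Fintype.card_pos
  have hn0 : (0 : ℝ) < Fintype.card V := by exact_mod_cast hN1
  have hlog : (0 : ℝ) ≤ (Nat.log 2 k : ℝ) := Nat.cast_nonneg _
  have hS0 : 0 ≤ ∑ x, ∑ y, d x y := sum_nonneg fun x _ => sum_nonneg fun y _ => hd x y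
  rcases hS0.eq_or_lt with hS00 | hSpos
  · rw [← hS00, mul_zero]; positivity
  obtain ⟨δ, hδ0, hSδ⟩ : ∃ δ : ℝ, 0 < δ ∧
      ∑ x, ∑ y, d x y = δ * (Fintype.card V : ℝ) ^ 2 :=
    ⟨(∑ x, ∑ y, d x y) / (Fintype.card V : ℝ) ^ 2, by positivity, by field_simp⟩
  obtain ⟨hm1, hm2, hm3⟩ := num_facts hN1 hk
  set m : ℕ := (Fintype.card V - 1) / (32 * k) + 1 with hm
  set l : ℝ := Real.sqrt (1 + (Nat.log 2 (Fintype.card V / m) : ℝ)) with hl
  have hl1 : 1 ≤ l := by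
    rw [hl]
    exact Real.one_le_sqrt.2 (by
      have : (0 : ℝ) ≤ (Nat.log 2 (Fintype.card V / m) : ℝ) := Nat.cast_nonneg _
      linarith)
  have hl2 : 2 * l ≤ 5 * Real.sqrt (1 + (Nat.log 2 k : ℝ)) := by
    have h2 : (Nat.log 2 (Fintype.card V / m) : ℝ) ≤ 5 + (Nat.log 2 k : ℝ) := by
      exact_mod_cast hm3
    have h3 : l ≤ Real.sqrt ((5 / 2) ^ 2 * (1 + (Nat.log 2 k : ℝ))) := by
      rw [hl]
      apply Real.sqrt_le_sqrt
      nlinarith
    rw [Real.sqrt_mul (by norm_num), Real.sqrt_sq (by norm_num)] at h3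
    linarith
  have hτ0 : 0 < δ / (2048000000 * l) := by positivity
  have hgoal : 40000000000000 * l ≤
      100000000000000 * H * Real.sqrt (1 + (Nat.log 2 k : ℝ)) := by
    have h3 : 0 ≤ Real.sqrt (1 + (Nat.log 2 k : ℝ)) := Real.sqrt_nonneg _
    nlinarith
  rcases halt d hd0 hd hs ht _ hτ0 with h | ⟨Gd, hGc, hG⟩
  · have h1 : phi c * (δ / (2048000000 * l) * (Fintype.card V : ℝ) ^ 2) * (2048000000 * l) =
        phi c * (δ * (Fintype.card V : ℝ) ^ 2) := by field_simp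
    have h2 := mul_le_mul_of_nonneg_right h (show 0 ≤ 2048000000 * l by positivity)
    rw [h1, ← hSδ] at h2
    refine h2.trans ?_
    have h3 : 768 * H * (∑ x, ∑ y, c x y * d x y) * (2048000000 * l) =
        (768 * 2048000000 * H * l) * ∑ x, ∑ y, c x y * d x y := by ring
    rw [h3]
    refine mul_le_mul_of_nonneg_right ?_ hQ0
    have h4 : 0 ≤ H := by linarith
    have h5 := mul_le_mul_of_nonneg_left hl2 h4
    nlinarith
  · have h1 := arv_core hc hsym hm1 hneg hl hδ0 hSδ rfl Gd hGc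
      (fun x hx => hm2 _ (hG x hx))
    exact h1.trans (mul_le_mul_of_nonneg_right hgoal hQ0)

theorem gap_bound0 (hc : ∀ i j, 0 ≤ c i j) (hsym : ∀ i j, c i j = c j i) {k : ℕ}
    (hk : 1 ≤ k) {H : ℝ} (hH : 1 ≤ H) (halt : Alt0 c k H) :
    phi c ≤ 100000000000000 * H * Real.sqrt (1 + (Nat.log 2 k : ℝ)) * glValue c :=
  phi_le_gl' (by
    have : 0 < Real.sqrt (1 + (Nat.log 2 k : ℝ)) := Real.sqrt_pos.2 (by positivity)
    positivity) fun _ hneg => neg_bound0 hc hsym hk hH halt hneg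


lemma structured_of_nearRanked {k : ℕ} {H : ℝ} (hH : 1 ≤ H)
    {A : Finset V} (h : NearRanked c k H A) : Structured c e k H A := by
  classical
  obtain ⟨a, b, ha, hb, h⟩ := h
  refine ⟨a, b, ha, hb, le_trans (mul_le_mul_of_nonneg_left ?_ (by norm_num)) h⟩
  have h0 : ∀ x y, 0 ≤ max 0 (c x y - H * ∑ i, a i x * b i y) +
      2 * H * max 0 (∑ i, a i x * b i y - c x y) := fun x y =>
    add_nonneg (le_max_left _ _) (mul_nonneg (by linarith) (le_max_left _ _))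
  calc ∑ x ∈ A.filter (fun x => ¬ SpreadAt e k x), ∑ y ∈ Aᶜ.filter (fun y => ¬ SpreadAt e k y),
      (max 0 (c x y - H * ∑ i, a i x * b i y) + 2 * H * max 0 (∑ i, a i x * b i y - c x y))
      ≤ ∑ x ∈ A.filter (fun x => ¬ SpreadAt e k x), ∑ y ∈ Aᶜ,
      (max 0 (c x y - H * ∑ i, a i x * b i y) + 2 * H * max 0 (∑ i, a i x * b i y - c x y)) :=
        sum_le_sum fun x _ => sum_le_sum_of_subset_of_nonneg (filter_subset _ _)
          fun y _ _ => h0 x y
    _ ≤ _ := sum_le_sum_of_subset_of_nonneg (filter_subset _ _)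
          fun x _ _ => sum_nonneg fun y _ => h0 x y

/-- If all vertices of `A` are spread there is no condition. -/
lemma structured_of_spread (hc : ∀ i j, 0 ≤ c i j) {k : ℕ} {H : ℝ} {A : Finset V}
    (h : ∀ x ∈ A, SpreadAt e k x) : Structured c e k H A := by
  classical
  refine ⟨fun _ _ => 0, fun _ _ => 0, fun _ _ => le_rfl, fun _ _ => le_rfl, ?_⟩
  have h1 : A.filter (fun x => ¬ SpreadAt e k x) = ∅ :=
    filter_eq_empty_iff.2 fun x hx => not_not.2 (h x hx)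
  rw [h1, sum_empty, mul_zero]
  exact mul_nonneg (phi_nonneg hc) (sq_nonneg _)

/-- **Spread or structured.** -/
theorem main_spread (hc : ∀ i j, 0 ≤ c i j) (hsym : ∀ i j, c i j = c j i) {k : ℕ}
    (hk : 1 ≤ k) {H : ℝ} (hH : 1 ≤ H) (he : Carries c e H)
    (h : Cuttable V (Structured c e k H)) :
    phi c ≤ 100000000000000 * H * Real.sqrt (1 + (Nat.log 2 k : ℝ)) * glValue c ∧
    ∀ d : V → V → ℝ, (∀ i, d i i = 0) → (∀ i j, d i j = d j i) →
      (∀ i j k, d i k ≤ d i j + d j k) →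
      phi c * ∑ i, ∑ j, d i j ≤ 52434 * (H + (Nat.log 2 k : ℝ)) * ∑ i, ∑ j, c i j * d i j := by
  obtain ⟨A, h1, h2, h3⟩ : ∃ A : Finset V, Fintype.card V ≤ 3 * A.card ∧
      3 * A.card ≤ 2 * Fintype.card V ∧ Structured c e k H A := by
    rcases h with h | h
    · exact h
    · have h2 : 2 ≤ Fintype.card V := Fintype.one_lt_card
      obtain ⟨B, hB, h3, h4⟩ := h.balanced (fun v => structured_of_nearRanked hH
        (nearRanked_of_ranked hc (ranked_singleton hc hk hH v))) h2 (by rw [card_univ]; omega)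
      exact ⟨B, h3, h4, hB⟩
  have halt := spread_alternative hc hsym h1 h2 hk hH he h3
  refine ⟨gap_bound0 hc hsym hk hH halt, fun d hd0 hs ht => ?_⟩
  refine metric_bound0 hc hsym hk hH halt hd0 (fun x y => ?_) hs ht
  have h1 := ht x y x
  rw [hd0, hs y x] at h1
  linarith

/-- A third of the vertices spread: no condition on the others. -/
theorem cuttable_of_third (hc : ∀ i j, 0 ≤ c i j) {k : ℕ} {H : ℝ} {X : Finset V}
    (hX : Fintype.card V ≤ 3 * X.card) (hsp : ∀ x ∈ X, SpreadAt e k x) :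
    Cuttable V (Structured c e k H) := by
  have h2 : 2 ≤ Fintype.card V := Fintype.one_lt_card
  obtain ⟨A, hAX, hA⟩ := exists_subset_card_eq (s := X) (n := (Fintype.card V + 2) / 3) (by omega)
  exact Or.inl ⟨A, by rw [hA]; omega, by rw [hA]; omega,
    structured_of_spread hc fun x hx => hsp x (hAX hx)⟩

/-- For `0`/`1` capacities a vertex of degree at least `4 n / (3 k)` is spread. -/
lemma spreadAt_of_degree (h01 : ∀ i j, c i j = 0 ∨ c i j = 1) {k : ℕ} {w : V}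
    (hw : 4 * (Fintype.card V : ℝ) ≤ 3 * k * ∑ y, c w y) : SpreadAt c k w := by
  intro S _ h
  have h1 : ∑ y ∈ S, c w y ≤ (S.card : ℝ) := by
    calc ∑ y ∈ S, c w y ≤ ∑ _y ∈ S, (1 : ℝ) := sum_le_sum fun y _ => by
          rcases h01 w y with h | h <;> rw [h]
          norm_num
      _ = (S.card : ℝ) := by simp
  have h2 : (k : ℝ) * (3 * ∑ y, c w y) ≤ k * (4 * (S.card : ℝ)) :=
    mul_le_mul_of_nonneg_left (by linarith) (Nat.cast_nonneg k)
  have h3 : (Fintype.card V : ℝ) ≤ k * S.card := by linarith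
  exact_mod_cast h3

end Vale.Agent.P318.R2.H821
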