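import Vale.Agent.P318.R2.H305.Spectral
import Vale.Agent.P318.R2.H29.Grid
import Vale.Agent.P318.R2.H821.SpreadMain

/-!
# Threshold rank

If at most `r` eigenvalues of the Laplacian are smaller than `μ`, the Goemans-Linial gap is at most
`C (1 + phi c * n / μ) √(1 + r log (r + 1))`.
-/

open Finset

set_option linter.unusedSectionVars false

namespace Vale.Agent.P318.R2.H821

open Vale.Agent.P318.H867 Vale.Agent.P318.H724 Vale.Agent.P318.R2.H344 Vale.Agent.P318.R2.H305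
  Vale.Agent.P318.R2.H29

variable {V : Type*} [Fintype V] [DecidableEq V] [Nontrivial V] {c d : V → V → ℝ}

/-- Few points with a large value. -/
lemma card_large_le {f : V → ℝ} (hf : ∀ x, 0 ≤ f x) {a B : ℝ}
    (hB : ∑ x, f x ≤ B) : a * ((univ.filter fun x => a < f x).card : ℝ) ≤ B := by
  calc a * ((univ.filter fun x => a < f x).card : ℝ) = ∑ _x ∈ univ.filter fun x => a < f x, a := by
        rw [sum_const, nsmul_eq_mul, mul_comm]
    _ ≤ ∑ x ∈ univ.filter fun x => a < f x, f x :=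
        sum_le_sum fun x hx => (mem_filter.1 hx).2.le
    _ ≤ ∑ x, f x := sum_le_sum_of_subset_of_nonneg (filter_subset _ _) fun x _ _ => hf x
    _ ≤ B := hB

/-- The number of cells. -/
lemma log_cells (r : ℕ) : Nat.log 2 ((5000000 * (r + 1)) ^ r) ≤ (23 + r) * r := by
  have h1 : 5000000 * (r + 1) ≤ 2 ^ (23 + r) := by
    have h2 : r + 1 ≤ 2 ^ r := Nat.lt_two_pow_self
    calc 5000000 * (r + 1) ≤ 2 ^ 23 * 2 ^ r := Nat.mul_le_mul (by norm_num) h2
      _ = 2 ^ (23 + r) := by rw [pow_add]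
  calc Nat.log 2 ((5000000 * (r + 1)) ^ r) ≤ Nat.log 2 ((2 ^ (23 + r)) ^ r) :=
        Nat.log_mono_right (Nat.pow_le_pow_left h1 r)
    _ = (23 + r) * r := by rw [← pow_mul, Nat.log_pow (by norm_num)]

/-- The number of cells per coordinate. -/
lemma cells_bound {δ l : ℝ} {r : ℕ} (hδ0 : 0 < δ) (hl0 : 0 < l) (hl6 : l ≤ 6 * ((r : ℝ) + 1)) :
    2 * (8 * Real.sqrt δ) * Real.sqrt r / Real.sqrt (δ / (2048000000 * l) / 6) + 2 ≤
      ((5000000 * (r + 1) : ℕ) : ℝ) := by
  have hr0 : (0 : ℝ) ≤ r := Nat.cast_nonneg r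
  have hη : 0 < δ / (2048000000 * l) / 6 := by positivity
  have hη0 : 0 < Real.sqrt (δ / (2048000000 * l) / 6) := Real.sqrt_pos.2 hη
  have h3 : l * r ≤ 6 * ((r : ℝ) + 1) ^ 2 := by nlinarith
  have h4 : δ * (l * r) ≤ δ * (6 * ((r : ℝ) + 1) ^ 2) := mul_le_mul_of_nonneg_left h3 hδ0.le
  have h5 : 0 ≤ δ * ((r : ℝ) + 1) ^ 2 := by positivity
  have h6 : (2 * (8 * Real.sqrt δ) * Real.sqrt r) ^ 2 ≤
      (4999998 * ((r : ℝ) + 1) * Real.sqrt (δ / (2048000000 * l) / 6)) ^ 2 := by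
    have e1 : (2 * (8 * Real.sqrt δ) * Real.sqrt r) ^ 2 = 256 * δ * r := by
      rw [mul_pow, mul_pow, mul_pow, Real.sq_sqrt hδ0.le, Real.sq_sqrt hr0]
      ring
    have e2 : (4999998 * ((r : ℝ) + 1) * Real.sqrt (δ / (2048000000 * l) / 6)) ^ 2 =
        4999998 ^ 2 * ((r : ℝ) + 1) ^ 2 * δ / (12288000000 * l) := by
      rw [mul_pow, mul_pow, Real.sq_sqrt hη.le]
      field_simp
      norm_num
    rw [e1, e2, le_div_iff₀ (by positivity)]
    linarith
  have h7 : 2 * (8 * Real.sqrt δ) * Real.sqrt r ≤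
      4999998 * ((r : ℝ) + 1) * Real.sqrt (δ / (2048000000 * l) / 6) :=
    (pow_le_pow_iff_left₀ (by positivity) (by positivity) two_ne_zero).1 h6
  have h8 : 2 * (8 * Real.sqrt δ) * Real.sqrt r / Real.sqrt (δ / (2048000000 * l) / 6) ≤
      4999998 * ((r : ℝ) + 1) := by
    rw [div_le_iff₀ hη0]
    exact h7
  push_cast
  linarith

/-- A centre with small total distance. -/
lemma exists_centre (d : V → V → ℝ) {δ : ℝ}
    (hSδ : ∑ x, ∑ y, d x y = δ * (Fintype.card V : ℝ) ^ 2) :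
    ∃ x0, ∑ y, d x0 y ≤ δ * Fintype.card V := by
  by_contra hcon
  push Not at hcon
  have h1 : ∑ _x : V, δ * (Fintype.card V : ℝ) < ∑ x, ∑ y, d x y :=
    sum_lt_sum_of_nonempty univ_nonempty fun x _ => hcon x
  rw [sum_const, card_univ, nsmul_eq_mul, hSδ] at h1
  have h2 : (Fintype.card V : ℝ) * (δ * Fintype.card V) = δ * (Fintype.card V : ℝ) ^ 2 := by ring
  rw [h2] at h1
  exact lt_irrefl _ h1

lemma sq_norm_three {E : Type*} [NormedAddCommGroup E] (a b u v : E) :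
    ‖a - b‖ ^ 2 ≤ 3 * (‖a - u‖ ^ 2 + ‖u - v‖ ^ 2 + ‖b - v‖ ^ 2) := by
  have h1 : ‖a - b‖ ≤ ‖a - u‖ + ‖u - v‖ + ‖b - v‖ := by
    have h2 : a - b = (a - u) + (u - v) + (v - b) := by abel
    rw [h2]
    refine (norm_add₃_le).trans ?_
    rw [norm_sub_rev v b]
  have h3 : ‖a - b‖ ^ 2 ≤ (‖a - u‖ + ‖u - v‖ + ‖b - v‖) ^ 2 :=
    pow_le_pow_left₀ (norm_nonneg _) h1 2
  nlinarith [sq_nonneg (‖a - u‖ - ‖u - v‖), sq_nonneg (‖u - v‖ - ‖b - v‖),
    sq_nonneg (‖a - u‖ - ‖b - v‖)]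

/-- **Threshold rank, for one negative type semimetric.** -/
theorem threshold_neg (hc : ∀ i j, 0 ≤ c i j) (hsym : ∀ i j, c i j = c j i) {μ : ℝ}
    (hμ : 0 < μ) {r : ℕ} (hr : lowCount c μ ≤ r) (hneg : IsNegTypeSemimetric d) :
    phi c * ∑ x, ∑ y, d x y ≤
      100000000000000 * (1 + phi c * Fintype.card V / μ) *
        Real.sqrt (1 + (Nat.log 2 ((5000000 * (r + 1)) ^ r) : ℝ)) *
        ∑ x, ∑ y, c x y * d x y := by
  classical
  obtain ⟨⟨X0, hX0⟩, ht⟩ := id hneg
  have hd : ∀ x y, 0 ≤ d x y := fun x y => by rw [hX0]; positivity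
  have hs : ∀ x y, d x y = d y x := fun x y => by rw [hX0, hX0, norm_sub_rev]
  have hphi := phi_nonneg hc
  set k : ℕ := (5000000 * (r + 1)) ^ r with hkdef
  have hk : 1 ≤ k := Nat.one_le_pow _ _ (by omega)
  set Q := ∑ x, ∑ y, c x y * d x y with hQ
  have hQ0 : 0 ≤ Q := sum_nonneg fun x _ => sum_nonneg fun y _ => mul_nonneg (hc x y) (hd x y)
  have hN1 : 1 ≤ Fintype.card V := Fintype.card_pos
  have hn0 : (0 : ℝ) < Fintype.card V := by exact_mod_cast hN1
  have hlog : (0 : ℝ) ≤ (Nat.log 2 k : ℝ) := Nat.cast_nonneg _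
  have hfac : 0 ≤ phi c * Fintype.card V / μ := by positivity
  have hS0 : 0 ≤ ∑ x, ∑ y, d x y := sum_nonneg fun x _ => sum_nonneg fun y _ => hd x y
  rcases hS0.eq_or_lt with hS00 | hSpos
  · rw [← hS00, mul_zero]; positivity
  obtain ⟨δ, hδ0, hSδ⟩ : ∃ δ : ℝ, 0 < δ ∧
      ∑ x, ∑ y, d x y = δ * (Fintype.card V : ℝ) ^ 2 :=
    ⟨(∑ x, ∑ y, d x y) / (Fintype.card V : ℝ) ^ 2, by positivity, by field_simp⟩
  obtain ⟨hm1, hm2, hm3⟩ := num_facts hN1 hk
  set m : ℕ := (Fintype.card V - 1) / (32 * k) + 1 with hm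
  set l : ℝ := Real.sqrt (1 + (Nat.log 2 (Fintype.card V / m) : ℝ)) with hl
  have hl1 : 1 ≤ l := by
    rw [hl]
    exact Real.one_le_sqrt.2 (by
      have : (0 : ℝ) ≤ (Nat.log 2 (Fintype.card V / m) : ℝ) := Nat.cast_nonneg _
      linarith)
  have hlogm : (Nat.log 2 (Fintype.card V / m) : ℝ) ≤ 5 + (Nat.log 2 k : ℝ) := by
    exact_mod_cast hm3
  have hl2 : 2 * l ≤ 5 * Real.sqrt (1 + (Nat.log 2 k : ℝ)) := by
    have h3 : l ≤ Real.sqrt ((5 / 2) ^ 2 * (1 + (Nat.log 2 k : ℝ))) := by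
      rw [hl]
      apply Real.sqrt_le_sqrt
      nlinarith
    rw [Real.sqrt_mul (by norm_num), Real.sqrt_sq (by norm_num)] at h3
    linarith
  have hl6 : l ≤ 6 * (r + 1) := by
    have h1 : (Nat.log 2 k : ℝ) ≤ (23 + r) * r := by exact_mod_cast log_cells r
    have hr0 : (0 : ℝ) ≤ r := Nat.cast_nonneg r
    have h2 : l ≤ Real.sqrt ((6 * (r + 1)) ^ 2) := by
      rw [hl]
      apply Real.sqrt_le_sqrt
      nlinarith
    rwa [Real.sqrt_sq (by positivity)] at h2
  have hl0 : 0 < l := by linarith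
  set τ : ℝ := δ / (2048000000 * l) with hτ
  have hτ0 : 0 < τ := by positivity
  -- the two final inequalities
  have hgoal1 : 40000000000000 * l * Q ≤ 100000000000000 * (1 + phi c * Fintype.card V / μ) *
      Real.sqrt (1 + (Nat.log 2 k : ℝ)) * Q := by
    refine mul_le_mul_of_nonneg_right ?_ hQ0
    have h3 : 0 ≤ Real.sqrt (1 + (Nat.log 2 k : ℝ)) := Real.sqrt_nonneg _
    nlinarith [mul_nonneg hfac h3]
  -- the vectors
  obtain ⟨x0, hx0⟩ := exists_centre d hSδ
  set X : V → EuclideanSpace ℝ V := fun x => X0 x - X0 x0 with hXdef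
  have hXd : ∀ x y, d x y = ‖X x - X y‖ ^ 2 := fun x y => by
    rw [hX0]
    simp only [hXdef, sub_sub_sub_cancel_right]
  have hXsum : ∑ x, ‖X x‖ ^ 2 ≤ δ * Fintype.card V := by
    refine le_trans (le_of_eq ?_) hx0
    refine sum_congr rfl fun x _ => ?_
    rw [hX0, norm_sub_rev]
  obtain ⟨Y, hY1, hY2, hY3⟩ := spectral_split hc hsym hμ hr X
  have hY2' : ∑ x, ‖X x - Y x‖ ^ 2 ≤ Q / (2 * μ) := by
    refine hY2.trans (le_of_eq ?_)
    rw [hQ]
    simp only [hXd]
  have hb1 := card_large_le (f := fun x => ‖X x - Y x‖ ^ 2) (fun x => by positivity)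
    (a := τ / 12) hY2'
  have hb2 := card_large_le (f := fun x => ‖Y x‖ ^ 2) (fun x => by positivity)
    (a := 64 * δ) (hY3.trans hXsum)
  set B1 := univ.filter fun x => τ / 12 < ‖X x - Y x‖ ^ 2 with hB1
  set B2 := univ.filter fun x => 64 * δ < ‖Y x‖ ^ 2 with hB2
  have hB2c : 64 * (B2.card : ℝ) ≤ Fintype.card V := by
    have h1 : δ * (64 * (B2.card : ℝ)) ≤ δ * Fintype.card V := by linarith
    exact le_of_mul_le_mul_left h1 hδ0
  rcases le_or_gt (64 * (B1.card : ℝ)) (Fintype.card V) with hB1c | hB1c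
  · -- most points are close to their projections
    have hη0 : 0 < Real.sqrt (τ / 6) := Real.sqrt_pos.2 (by positivity)
    have hη2 : Real.sqrt (τ / 6) ^ 2 = τ / 6 := Real.sq_sqrt (by positivity)
    have hq : 2 * (8 * Real.sqrt δ) * Real.sqrt r / Real.sqrt (τ / 6) + 2 ≤
        ((5000000 * (r + 1) : ℕ) : ℝ) := cells_bound hδ0 hl0 hl6
    obtain ⟨π, hπ⟩ := grid Y hY1 (R := 8 * Real.sqrt δ) (by positivity) hη0 hq
    set Gd := univ.filter fun x => Fintype.card V ≤ 32 * k * (ball d x τ).card with hGd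
    set W := univ.filter fun x => (x ∉ B1 ∧ x ∉ B2) ∧
      ¬ Fintype.card V ≤ 32 * k * (ball d x τ).card with hW
    have e1 := small_classes W π (n := Fintype.card V)
    have hclose : ∀ x ∈ W, ∀ y ∈ W, π x = π y → d x y ≤ τ := by
      intro x hx y hy hxy
      obtain ⟨⟨hx1, hx2⟩, -⟩ := (mem_filter.1 hx).2
      obtain ⟨⟨hy1, hy2⟩, -⟩ := (mem_filter.1 hy).2
      have a1 : ∀ z, z ∉ B1 → ‖X z - Y z‖ ^ 2 ≤ τ / 12 := fun z hz => by
        by_contra h
        exact hz (mem_filter.2 ⟨mem_univ _, not_le.1 h⟩)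
      have a2 : ∀ z, z ∉ B2 → ‖Y z‖ ≤ 8 * Real.sqrt δ := fun z hz => by
        have h : ‖Y z‖ ^ 2 ≤ 64 * δ := by
          by_contra h
          exact hz (mem_filter.2 ⟨mem_univ _, not_le.1 h⟩)
        apply (pow_le_pow_iff_left₀ (norm_nonneg _) (by positivity) two_ne_zero).1
        rw [mul_pow, Real.sq_sqrt hδ0.le]
        linarith
      have a3 := hπ x y (a2 x hx2) (a2 y hy2) hxy
      have a4 : ‖Y x - Y y‖ ^ 2 ≤ τ / 6 := by
        rw [← hη2]
        exact pow_le_pow_left₀ (norm_nonneg _) a3 2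
      have a5 := sq_norm_three (X x) (X y) (Y x) (Y y)
      rw [hXd]
      linarith [a1 x hx1, a1 y hy1]
    have e2 : W.filter (fun x => 32 * (5000000 * (r + 1)) ^ r *
        (W.filter fun y => π y = π x).card < Fintype.card V) = W := by
      refine filter_true_of_mem fun x hx => ?_
      by_contra hcon
      rw [not_lt] at hcon
      apply (mem_filter.1 hx).2.2
      refine hcon.trans (Nat.mul_le_mul_left _ (card_le_card ?_))
      intro y hy
      rw [mem_filter] at hy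
      rw [mem_ball]
      exact hclose x hx y hy.1 hy.2.symm
    rw [e2] at e1
    have e3 : 32 * W.card ≤ Fintype.card V := by
      refine Nat.le_of_mul_le_mul_left ?_ (lt_of_lt_of_le Nat.zero_lt_one hk)
      calc k * (32 * W.card) = 32 * (5000000 * (r + 1)) ^ r * W.card := by rw [hkdef]; ring
        _ ≤ k * Fintype.card V := e1
    have e4 : Fintype.card V ≤ Gd.card + (B1.card + (B2.card + W.card)) := by
      have e5 : (univ : Finset V) ⊆ Gd ∪ (B1 ∪ (B2 ∪ W)) := by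
        intro x _
        rw [mem_union, mem_union, mem_union]
        by_cases h1 : x ∈ B1
        · exact Or.inr (Or.inl h1)
        · by_cases h2 : x ∈ B2
          · exact Or.inr (Or.inr (Or.inl h2))
          · by_cases h3 : Fintype.card V ≤ 32 * k * (ball d x τ).card
            · exact Or.inl (mem_filter.2 ⟨mem_univ _, h3⟩)
            · exact Or.inr (Or.inr (Or.inr (mem_filter.2 ⟨mem_univ _, ⟨h1, h2⟩, h3⟩)))
      calc Fintype.card V = (univ : Finset V).card := card_univ.symm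
        _ ≤ (Gd ∪ (B1 ∪ (B2 ∪ W))).card := card_le_card e5
        _ ≤ Gd.card + (B1 ∪ (B2 ∪ W)).card := card_union_le _ _
        _ ≤ Gd.card + (B1.card + (B2 ∪ W).card) := Nat.add_le_add_left (card_union_le _ _) _
        _ ≤ Gd.card + (B1.card + (B2.card + W.card)) :=
            Nat.add_le_add_left (Nat.add_le_add_left (card_union_le _ _) _) _
    have e4' : (Fintype.card V : ℝ) ≤ Gd.card + (B1.card + (B2.card + W.card)) := by
      exact_mod_cast e4
    have e3' : 32 * (W.card : ℝ) ≤ Fintype.card V := by exact_mod_cast e3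
    have h1 := arv_core hc hsym hm1 hneg hl hδ0 hSδ rfl Gd (by linarith)
      (fun x hx => hm2 _ (mem_filter.1 hx).2)
    exact h1.trans hgoal1
  · -- many points are far from their projections
    have h1 : (Fintype.card V : ℝ) * (μ * τ) ≤ 384 * Q := by
      have h2 : τ / 12 * (B1.card : ℝ) * (2 * μ) ≤ Q := by
        rw [← le_div_iff₀ (by positivity)]
        exact hb1
      have h3 : (Fintype.card V : ℝ) * (μ * τ) ≤ 64 * (B1.card : ℝ) * (μ * τ) :=
        mul_le_mul_of_nonneg_right hB1c.le (by positivity)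
      linarith
    have h4 : δ = τ * (2048000000 * l) := by
      rw [hτ]
      field_simp
    have h5 : phi c * ∑ x, ∑ y, d x y =
        phi c * Fintype.card V / μ * (2048000000 * l) * ((Fintype.card V : ℝ) * (μ * τ)) := by
      rw [hSδ]
      conv_lhs => rw [h4]
      field_simp
    rw [h5]
    have h6 : phi c * Fintype.card V / μ * (2048000000 * l) *
        ((Fintype.card V : ℝ) * (μ * τ)) ≤
        phi c * Fintype.card V / μ * (2048000000 * l) * (384 * Q) :=
      mul_le_mul_of_nonneg_left h1 (by positivity)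
    refine h6.trans ?_
    have h7 : phi c * Fintype.card V / μ * (2048000000 * l) * (384 * Q) =
        (2048000000 * 384 * (phi c * Fintype.card V / μ) * l) * Q := by ring
    rw [h7]
    refine mul_le_mul_of_nonneg_right ?_ hQ0
    have h8 : 0 ≤ Real.sqrt (1 + (Nat.log 2 k : ℝ)) := Real.sqrt_nonneg _
    have h9 := mul_le_mul_of_nonneg_left hl2 hfac
    nlinarith [mul_nonneg hfac h8]

/-- **Threshold rank.** -/
theorem main_threshold (hc : ∀ i j, 0 ≤ c i j) (hsym : ∀ i j, c i j = c j i) {μ : ℝ}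
    (hμ : 0 < μ) {r : ℕ} (hr : lowCount c μ ≤ r) :
    phi c ≤ 100000000000000 * (1 + phi c * Fintype.card V / μ) *
      Real.sqrt (1 + (Nat.log 2 ((5000000 * (r + 1)) ^ r) : ℝ)) * glValue c := by
  have hphi := phi_nonneg hc
  refine phi_le_gl' ?_ fun _ hneg => threshold_neg hc hsym hμ hr hneg
  have h1 : 0 < Real.sqrt (1 + (Nat.log 2 ((5000000 * (r + 1)) ^ r) : ℝ)) :=
    Real.sqrt_pos.2 (by positivity)
  have h2 : 0 ≤ phi c * Fintype.card V / μ := by positivity
  positivity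

end Vale.Agent.P318.R2.H821
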