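import Vale.Agent.P318.R2.H821.Rows
import Vale.Agent.P318.R2.H305.Pack

/-!
# Graphs whose neighbourhoods have small VC dimension

For a `0`/`1` capacity, if the neighbourhoods (outside a balanced set `A`) of the vertices of `A`
shatter no set of more than `D` vertices, then the gap is at most
`C √(1 + D log (2 + D / phi c))`.
-/

open Finset

set_option linter.unusedSectionVars false

namespace Vale.Agent.P318.R2.H821

open Vale.Agent.P318.H867 Vale.Agent.P318.H724 Vale.Agent.P318.R2.H344 Vale.Agent.P318.R2.H305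

variable {V : Type*} [Fintype V] [DecidableEq V] [Nontrivial V] {c : V → V → ℝ}

/-- The sets `{y ∉ A : c x y = 1}`, `x ∈ A`, shatter no set of more than `D` vertices. -/
def RowVC (c : V → V → ℝ) (D : ℕ) (A : Finset V) : Prop :=
  ∀ S : Finset V, Disjoint S A → (∀ T ⊆ S, ∃ x ∈ A, ∀ y ∈ S, (c x y = 1 ↔ y ∈ T)) → S.card ≤ D

lemma glValue_nonneg (hc : ∀ i j, 0 ≤ c i j) : 0 ≤ glValue c := by
  apply Real.sInf_nonneg
  rintro r ⟨d, ⟨⟨x, hx⟩, -⟩, -, rfl⟩
  have h : 0 ≤ ∑ i, ∑ j, c i j * d i j := sum_nonneg fun i _ => sum_nonneg fun j _ =>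
    mul_nonneg (hc i j) (by rw [hx]; positivity)
  positivity

/-- The number of separated rows of a family of small VC dimension. -/
lemma log_card_le (h01 : ∀ i j, c i j = 0 ∨ c i j = 1) {A : Finset V}
    (hAc : Aᶜ.Nonempty) {D : ℕ} (hD : RowVC c D A) {e : ℝ} (he0 : 0 < e) (he1 : e ≤ 1)
    {X : Finset V} (hX : SepRows c A (e * (Fintype.card V : ℝ)) X) :
    (Nat.log 2 X.card : ℝ) ≤ 6 * D * Real.log (2 + D / e) := by
  classical
  have hne : Nonempty {y // y ∉ A} := by
    obtain ⟨y, hy⟩ := hAc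
    exact ⟨⟨y, mem_compl.1 hy⟩⟩
  let f : Fin X.card → V := fun i => (X.equivFin.symm i : V)
  have hf : ∀ i, f i ∈ X := fun i => (X.equivFin.symm i).2
  have hfi : ∀ i j, i ≠ j → f i ≠ f j := fun i j hij h =>
    hij (X.equivFin.symm.injective (Subtype.ext h))
  let R : Fin X.card → Finset {y // y ∉ A} := fun i => univ.filter fun y => c (f i) y = 1
  refine packing_log_two (Y := {y // y ∉ A}) he0 he1 R (fun i j hij => ?_) (fun S hS => ?_)
  · have h1 := (hX.2 _ (hf i) _ (hf j) (hfi i j hij)).le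
    have h2 : ∑ y ∈ Aᶜ, |c (f i) y - c (f j) y| = ((symmDiff (R i) (R j)).card : ℝ) := by
      have h3 : ∑ y ∈ Aᶜ, |c (f i) y - c (f j) y| =
          ∑ y : {y // y ∉ A}, |c (f i) y - c (f j) y| := by
        rw [← sum_subtype_of_mem (p := fun y => y ∉ A) (fun y => |c (f i) y - c (f j) y|)
          (fun y hy => mem_compl.1 hy)]
        refine sum_congr ?_ fun _ _ => rfl
        ext y
        simp [y.2]
      rw [h3, card_eq_sum_ones, Nat.cast_sum, ← sum_filter_add_sum_filter_not univ
        (fun y => y ∈ symmDiff (R i) (R j))]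
      have h4 : ∑ y ∈ univ.filter (fun y => y ∉ symmDiff (R i) (R j)),
          |c (f i) y - c (f j) y| = 0 := by
        refine sum_eq_zero fun y hy => ?_
        rw [mem_filter, mem_symmDiff] at hy
        have h5 := hy.2
        simp only [R, mem_filter, mem_univ, true_and] at h5
        rcases h01 (f i) y with h6 | h6 <;> rcases h01 (f j) y with h7 | h7 <;>
          simp_all
      have h8 : ∑ y ∈ univ.filter (fun y => y ∈ symmDiff (R i) (R j)),
          |c (f i) y - c (f j) y| = ∑ y ∈ symmDiff (R i) (R j), ((1 : ℕ) : ℝ) := by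
        refine sum_congr (by ext y; simp) fun y hy => ?_
        rw [mem_symmDiff] at hy
        have h5 := hy
        simp only [R, mem_filter, mem_univ, true_and] at h5
        rcases h01 (f i) y with h6 | h6 <;> rcases h01 (f j) y with h7 | h7 <;>
          simp_all
      rw [h4, h8, add_zero]
    rw [h2] at h1
    refine le_trans (mul_le_mul_of_nonneg_left ?_ he0.le) h1
    exact_mod_cast Fintype.card_subtype_le _
  · rw [← card_map (Function.Embedding.subtype fun y => y ∉ A)]
    refine hD _ ?_ fun T hT => ?_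
    · refine disjoint_left.2 fun y hy => ?_
      rw [mem_map] at hy
      obtain ⟨z, -, rfl⟩ := hy
      exact z.2
    · obtain ⟨i, hi⟩ := hS (S.filter fun y => (y : V) ∈ T) (filter_subset _ _)
      refine ⟨f i, hX.1 (hf i), fun y hy => ?_⟩
      rw [mem_map] at hy
      obtain ⟨z, hz, rfl⟩ := hy
      have h1 : z ∈ R i ∩ S ↔ z ∈ S.filter (fun y : {y // y ∉ A} => (y : V) ∈ T) := by rw [hi]
      simp only [R, mem_inter, mem_filter, mem_univ, true_and, hz, and_true] at h1
      exact h1

/-- **Small VC dimension.** -/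
theorem main_vc (h01 : ∀ i j, c i j = 0 ∨ c i j = 1) (hsym : ∀ i j, c i j = c j i)
    {A : Finset V} (hA : Fintype.card V ≤ 3 * A.card)
    (hA2 : 3 * A.card ≤ 2 * Fintype.card V) {D : ℕ} (hD : RowVC c D A) :
    phi c ≤ 100000000000000 * Real.sqrt (1 + 6 * D * Real.log (2 + 48 * D / phi c)) *
      glValue c ∧
    ∀ d : V → V → ℝ, (∀ i, d i i = 0) → (∀ i j, d i j = d j i) →
      (∀ i j k, d i k ≤ d i j + d j k) →
      phi c * ∑ i, ∑ j, d i j ≤ 52434 * (1 + 6 * D * Real.log (2 + 48 * D / phi c)) *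
        ∑ i, ∑ j, c i j * d i j := by
  have hc : ∀ i j, 0 ≤ c i j := by
    intro i j
    rcases h01 i j with h | h <;> rw [h]
    norm_num
  have hphi := phi_nonneg hc
  have hgl := glValue_nonneg hc
  have hD0 : (0 : ℝ) ≤ D := Nat.cast_nonneg D
  have hlog : 0 ≤ 6 * (D : ℝ) * Real.log (2 + 48 * D / phi c) := by
    have h1 : 0 ≤ 48 * (D : ℝ) / phi c := by positivity
    have h2 : 0 ≤ Real.log (2 + 48 * D / phi c) := Real.log_nonneg (by linarith)
    positivity
  have hn : 0 < Fintype.card V := Fintype.card_pos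
  have hAne : A.Nonempty := by
    rw [← card_pos]
    omega
  have hAc : Aᶜ.Nonempty := by
    rw [← card_pos, card_compl]
    omega
  rcases hphi.eq_or_lt with h0 | hpos
  · constructor
    · rw [← h0] at hlog ⊢
      positivity
    · intro d hd0 hs ht
      have hd : ∀ x y, 0 ≤ d x y := by
        intro x y
        have h1 := ht x y x
        rw [hd0, hs y x] at h1
        linarith
      have hQ0 : 0 ≤ ∑ x, ∑ y, c x y * d x y :=
        sum_nonneg fun x _ => sum_nonneg fun y _ => mul_nonneg (hc x y) (hd x y)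
      rw [← h0] at hlog ⊢
      rw [zero_mul]
      positivity
  · have hle1 : phi c ≤ 1 := by
      have h1 := phi_mul_le hc A
      have h2 : cutCap c A ≤ (A.card : ℝ) * (Aᶜ.card : ℝ) := by
        unfold cutCap
        calc ∑ i ∈ A, ∑ j ∈ Aᶜ, c i j ≤ ∑ _i ∈ A, ∑ _j ∈ Aᶜ, (1 : ℝ) :=
              sum_le_sum fun i _ => sum_le_sum fun j _ => by
                rcases h01 i j with h | h <;> rw [h]
                norm_num
          _ = (A.card : ℝ) * (Aᶜ.card : ℝ) := by simp
      have h3 : 0 < (A.card : ℝ) * (Aᶜ.card : ℝ) := by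
        have := hAne.card_pos
        have := hAc.card_pos
        positivity
      have h4 : phi c * ((A.card : ℝ) * (Aᶜ.card : ℝ)) ≤ 1 * ((A.card : ℝ) * (Aᶜ.card : ℝ)) := by
        rw [one_mul]
        exact h1.trans h2
      exact le_of_mul_le_mul_right h4 h3
    obtain ⟨X, hX, hXA⟩ := exists_max_sep c A (r := phi c * (Fintype.card V : ℝ) / 48)
      (by positivity)
    obtain ⟨x, hx⟩ := hAne
    obtain ⟨z, hz, -⟩ := hXA x hx
    have hk1 : 1 ≤ X.card := card_pos.2 ⟨z, hz⟩
    have hX' : SepRows c A (phi c / 48 * (Fintype.card V : ℝ)) X := by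
      rw [div_mul_eq_mul_div]
      exact hX
    have hl := log_card_le h01 hAc hD (e := phi c / 48) (by positivity) (by linarith) hX'
    have he : (D : ℝ) / (phi c / 48) = 48 * D / phi c := by
      field_simp
    rw [he] at hl
    obtain ⟨h1, h2⟩ := main_near hc hsym hk1 (H := 1) le_rfl hA hA2
      (nearRanked_of_sep hc hA2 hXA le_rfl)
    constructor
    · refine h1.trans (mul_le_mul_of_nonneg_right ?_ hgl)
      rw [mul_one]
      refine mul_le_mul_of_nonneg_left (Real.sqrt_le_sqrt ?_) (by norm_num)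
      linarith
    · intro d hd0 hs ht
      have hd : ∀ x y, 0 ≤ d x y := by
        intro x y
        have h1 := ht x y x
        rw [hd0, hs y x] at h1
        linarith
      have hQ0 : 0 ≤ ∑ x, ∑ y, c x y * d x y :=
        sum_nonneg fun x _ => sum_nonneg fun y _ => mul_nonneg (hc x y) (hd x y)
      refine (h2 d hd0 hs ht).trans (mul_le_mul_of_nonneg_right ?_ hQ0)
      linarith

/-- The neighbourhoods `{y : c x y = 1}` shatter no set of more than `D` vertices. -/
def GraphVC (c : V → V → ℝ) (D : ℕ) : Prop :=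
  ∀ S : Finset V, (∀ T ⊆ S, ∃ x, ∀ y ∈ S, (c x y = 1 ↔ y ∈ T)) → S.card ≤ D

lemma GraphVC.rowVC {D : ℕ} (h : GraphVC c D) (A : Finset V) : RowVC c D A := by
  intro S _ hS
  refine h S fun T hT => ?_
  obtain ⟨x, -, hx⟩ := hS T hT
  exact ⟨x, hx⟩

lemma exists_balanced (V : Type*) [Fintype V] [DecidableEq V] [Nontrivial V] :
    ∃ A : Finset V, Fintype.card V ≤ 3 * A.card ∧ 3 * A.card ≤ 2 * Fintype.card V := by
  have h2 : 2 ≤ Fintype.card V := Fintype.one_lt_card
  obtain ⟨A, -, hA⟩ := exists_subset_card_eq (s := (univ : Finset V))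
    (n := (Fintype.card V + 2) / 3) (by rw [card_univ]; omega)
  exact ⟨A, by rw [hA]; omega, by rw [hA]; omega⟩

/-- **Small VC dimension**, for all neighbourhoods of a graph. -/
theorem main_graphVC (h01 : ∀ i j, c i j = 0 ∨ c i j = 1) (hsym : ∀ i j, c i j = c j i)
    {D : ℕ} (hD : GraphVC c D) :
    phi c ≤ 100000000000000 * Real.sqrt (1 + 6 * D * Real.log (2 + 48 * D / phi c)) *
      glValue c ∧
    ∀ d : V → V → ℝ, (∀ i, d i i = 0) → (∀ i j, d i j = d j i) →
      (∀ i j k, d i k ≤ d i j + d j k) →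
      phi c * ∑ i, ∑ j, d i j ≤ 52434 * (1 + 6 * D * Real.log (2 + 48 * D / phi c)) *
        ∑ i, ∑ j, c i j * d i j := by
  obtain ⟨A, hA, hA2⟩ := exists_balanced V
  exact main_vc h01 hsym hA hA2 (hD.rowVC A)

end Vale.Agent.P318.R2.H821
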